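import Crest.Agent.R232.Ineq

/-! Row 232: the defect of the projection on band-limited pieces. -/

open Finset

namespace Crest.Agent.R232

/-- the bounds on the defect operator -/
structure Op {E : Type} [Fintype E] (α β : E → ℝ) (N : ℝ) (K : (E → ℝ) →ₗ[ℝ] (E → ℝ)) : Prop where
  α0 : ∀ e, 0 ≤ α e
  β0 : ∀ e, 0 ≤ β e
  N1 : 1 ≤ N
  l2 : ∀ h, ∑ e, α e * K h e ^ 2 ≤ ∑ e, β e * h e ^ 2
  l1 : ∀ h, ∑ e, α e * |K h e| ≤ N * ∑ e, β e * |h e|
  ker : ∃ k : E → E → ℝ, (∀ e f, 0 ≤ k e f) ∧ (∀ e, ∑ f, k e f ≤ N) ∧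
    ∀ h e, |K h e| ≤ ∑ f, k e f * |h f|

/-- dyadic levels -/
structure Lev {E : Type} (s : E → ℝ) (J : ℕ) (l : E → ℕ) : Prop where
  le : ∀ e, l e ≤ J
  lo : ∀ e, s e ≠ 0 → (1 / 2) ^ l e ≤ |s e|
  hi : ∀ e, |s e| ≤ 2 * (1 / 2) ^ l e

def small {E : Type} (s : E → ℝ) (l : E → ℕ) (i : ℕ) : E → ℝ := fun f => if i ≤ l f then s f else 0

def big {E : Type} (s : E → ℝ) (l : E → ℕ) (i : ℕ) : E → ℝ := fun f => if i ≤ l f then 0 else s f

theorem K_small {E : Type} {K : (E → ℝ) →ₗ[ℝ] (E → ℝ)} {s : E → ℝ} (hs : K s = 0) (l : E → ℕ)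
    (i : ℕ) (e : E) : K (small s l i) e = - K (big s l i) e := by
  have h1 : small s l i + big s l i = s := by
    funext f
    simp only [small, big, Pi.add_apply]
    split_ifs <;> simp
  have h2 := congrFun (map_add K (small s l i) (big s l i)) e
  rw [h1, hs] at h2
  simp only [Pi.zero_apply, Pi.add_apply] at h2
  linarith

theorem Op.linf {E : Type} [Fintype E] {α β : E → ℝ} {N : ℝ} {K : (E → ℝ) →ₗ[ℝ] (E → ℝ)}
    (h : Op α β N K) (g : E → ℝ) (M : ℝ) (hM : 0 ≤ M) (hg : ∀ f, |g f| ≤ M) (e : E) :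
    |K g e| ≤ N * M := by
  obtain ⟨k, k0, k1, k2⟩ := h.ker
  refine (k2 g e).trans ?_
  calc ∑ f, k e f * |g f| ≤ ∑ f, k e f * M :=
        Finset.sum_le_sum fun f _ => mul_le_mul_of_nonneg_left (hg f) (k0 e f)
    _ = (∑ f, k e f) * M := by rw [Finset.sum_mul]
    _ ≤ N * M := mul_le_mul_of_nonneg_right (k1 e) hM

theorem tail_le {q : ℝ} (hq : 0 < q) {s : ℝ} {l : ℕ} (lo : s ≠ 0 → (1 / 2) ^ l ≤ |s|) (n : ℕ)
    (t : ℝ) (ht : 0 ≤ t) (hst : s = 0 → t = 0) :
    ∑ i ∈ range n, ((1 / 2 : ℝ) ^ i) ^ q * (if i ≤ l then 0 else t) ≤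
      1 / (1 - (1 / 2) ^ q) * (|s| ^ q * t) := by
  have hr1 := half_rpow_lt_one hq
  have hr0 : (0 : ℝ) < (1 / 2) ^ q := by positivity
  rcases eq_or_ne s 0 with h | h
  · simp [hst h]
  · have h1 : ∑ i ∈ range n, ((1 / 2 : ℝ) ^ i) ^ q * (if i ≤ l then 0 else t) ≤
        (∑ i ∈ range n, (if l ≤ i then ((1 / 2 : ℝ) ^ q) ^ i else 0)) * t := by
      rw [Finset.sum_mul]
      refine Finset.sum_le_sum fun i _ => ?_
      rw [Real.rpow_pow_comm (by norm_num)]
      by_cases hi : i ≤ l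
      · rw [if_pos hi, mul_zero]
        split_ifs <;> positivity
      · rw [if_neg hi, if_pos (by omega)]
    have h2 := mul_le_mul_of_nonneg_right (geo_tail hr0.le hr1 n l) ht
    have h3 : ((1 / 2 : ℝ) ^ q) ^ l ≤ |s| ^ q := by
      rw [Real.rpow_pow_comm (by norm_num)]
      exact Real.rpow_le_rpow (by positivity) (lo h) hq.le
    have h4 : 0 < 1 - (1 / 2 : ℝ) ^ q := by linarith
    refine h1.trans (h2.trans ?_)
    rw [div_mul_eq_mul_div, one_div_mul_eq_div]
    exact div_le_div_of_nonneg_right (mul_le_mul_of_nonneg_right h3 ht) h4.le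

theorem head_le {p : ℝ} (hp1 : 1 ≤ p) (hp : p < 2) {s : ℝ} {l : ℕ} (hi : |s| ≤ 2 * (1 / 2) ^ l)
    (n : ℕ) : ∑ i ∈ range n, ((1 / 2 : ℝ) ^ i) ^ (p - 2) * (if i ≤ l then s else 0) ^ 2 ≤
      1 / (1 - (1 / 2) ^ (2 - p)) * (2 * |s| ^ p) := by
  have hr1 := half_rpow_lt_one (show 0 < 2 - p by linarith)
  have hr0 : (0 : ℝ) < (1 / 2) ^ (2 - p) := by positivity
  have h4 : 0 < 1 - (1 / 2 : ℝ) ^ (2 - p) := by linarith
  rcases eq_or_ne s 0 with h | h
  · subst h
    simp only [ite_self, ne_eq, OfNat.ofNat_ne_zero, not_false_eq_true, zero_pow, mul_zero,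
      Finset.sum_const_zero]
    positivity
  · have hs0 : 0 < |s| := abs_pos.mpr h
    have h5 : ((1 / 2 : ℝ) ^ l) ^ (p - 2) * s ^ 2 ≤ 2 * |s| ^ p := by
      have h6 : ((1 / 2 : ℝ) ^ l) ^ (p - 2) ≤ (|s| / 2) ^ (p - 2) :=
        Real.rpow_le_rpow_of_nonpos (by positivity) (by linarith) (by linarith)
      have h7 : (|s| / 2) ^ (p - 2) * s ^ 2 = |s| ^ p * 2 ^ (2 - p) := by
        rw [Real.div_rpow hs0.le (by norm_num), ← sq_abs, ← Real.rpow_natCast, div_mul_eq_mul_div,
          ← Real.rpow_add hs0, div_eq_mul_inv, ← Real.rpow_neg (by norm_num)]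
        congr 2
        · push_cast
          ring
        · ring
      have h8 : (2 : ℝ) ^ (2 - p) ≤ 2 := by
        have := Real.rpow_le_rpow_of_exponent_le (show (1 : ℝ) ≤ 2 by norm_num)
          (show 2 - p ≤ 1 by linarith)
        rwa [Real.rpow_one] at this
      have h9 := mul_le_mul_of_nonneg_right h6 (sq_nonneg s)
      have h10 : 0 ≤ |s| ^ p := by positivity
      nlinarith
    have h1 : ∑ i ∈ range n, ((1 / 2 : ℝ) ^ i) ^ (p - 2) * (if i ≤ l then s else 0) ^ 2 ≤
        (∑ i ∈ range n, (if i ≤ l then ((1 / 2 : ℝ) ^ (2 - p)) ^ (l - i) else 0)) *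
          (2 * |s| ^ p) := by
      rw [Finset.sum_mul]
      refine Finset.sum_le_sum fun i _ => ?_
      by_cases hi : i ≤ l
      · rw [if_pos hi, if_pos hi]
        have e : ((1 / 2 : ℝ) ^ i) ^ (p - 2) =
            ((1 / 2 : ℝ) ^ (2 - p)) ^ (l - i) * ((1 / 2 : ℝ) ^ l) ^ (p - 2) := by
          have e2 : (1 / 2 : ℝ) ^ l = (1 / 2) ^ (l - i) * (1 / 2) ^ i := by
            rw [← pow_add]
            congr 1
            omega
          rw [e2, Real.mul_rpow (by positivity) (by positivity), ← mul_assoc,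
            Real.rpow_pow_comm (by norm_num), ← Real.rpow_add (by positivity)]
          simp
        rw [e, mul_assoc]
        exact mul_le_mul_of_nonneg_left h5 (by positivity)
      · simp [hi]
    exact h1.trans (mul_le_mul_of_nonneg_right (geo_head hr0.le hr1 n l) (by positivity))

theorem err_lt {p : ℝ} (h1 : 1 < p) (h2 : p < 2) : ∃ C : ℝ, 0 < C ∧
    ∀ {E : Type} [Fintype E] {α β : E → ℝ} {N : ℝ} {K : (E → ℝ) →ₗ[ℝ] (E → ℝ)}, Op α β N K →
    ∀ {s : E → ℝ} {J : ℕ} {l : E → ℕ}, Lev s J l → K s = 0 → ∀ n : ℕ,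
      ∑ i ∈ range n, ∑ e, α e * |K (small s l i) e| ^ p ≤
        C * N ^ (2 - p) * ∑ e, β e * |s e| ^ p := by
  have r1 := half_rpow_lt_one (show 0 < p - 1 by linarith)
  have r2 := half_rpow_lt_one (show 0 < 2 - p by linarith)
  set C1 : ℝ := 1 / (1 - (1 / 2) ^ (p - 1)) with hC1
  set C2 : ℝ := 1 / (1 - (1 / 2) ^ (2 - p)) with hC2
  have hC1p : 0 < C1 := by
    have : 0 < 1 - (1 / 2 : ℝ) ^ (p - 1) := by linarith
    positivity
  have hC2p : 0 < C2 := by
    have : 0 < 1 - (1 / 2 : ℝ) ^ (2 - p) := by linarith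
    positivity
  refine ⟨C1 + 2 * C2, by positivity, fun {E} _ {α β N K} hK {s J l} hl hs n => ?_⟩
  have hN : 0 < N := by linarith [hK.N1]
  have step : ∀ i, ∑ e, α e * |K (small s l i) e| ^ p ≤ N ^ (2 - p) * ∑ e, β e *
      (((1 / 2 : ℝ) ^ i) ^ (p - 1) * (if i ≤ l e then 0 else |s e|) +
        ((1 / 2 : ℝ) ^ i) ^ (p - 2) * (if i ≤ l e then s e else 0) ^ 2) := by
    intro i
    set lam : ℝ := (1 / 2) ^ i with hlam
    have hl0 : 0 < lam := by positivity
    have a1 : ∑ e, α e * |K (small s l i) e| ^ p ≤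
        (lam / N) ^ (p - 1) * ∑ e, α e * |K (big s l i) e| +
          (lam / N) ^ (p - 2) * ∑ e, α e * K (small s l i) e ^ 2 := by
      rw [Finset.mul_sum, Finset.mul_sum, ← Finset.sum_add_distrib]
      refine Finset.sum_le_sum fun e _ => ?_
      have := mul_le_mul_of_nonneg_left (young_lt h1.le h2.le (show 0 < lam / N by positivity)
        (abs_nonneg (K (small s l i) e))) (hK.α0 e)
      rw [sq_abs] at this
      rw [← abs_neg (K (big s l i) e), ← K_small hs]
      linarith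
    have a2 := mul_le_mul_of_nonneg_left (hK.l1 (big s l i))
      (show 0 ≤ (lam / N) ^ (p - 1) by positivity)
    have a3 := mul_le_mul_of_nonneg_left (hK.l2 (small s l i))
      (show 0 ≤ (lam / N) ^ (p - 2) by positivity)
    have e1 : (lam / N) ^ (p - 1) * N = N ^ (2 - p) * lam ^ (p - 1) := by
      rw [Real.div_rpow hl0.le hN.le, div_eq_mul_inv, ← Real.rpow_neg hN.le, mul_assoc,
        ← Real.rpow_add_one hN.ne', mul_comm]
      congr 2
      ring
    have e2 : (lam / N) ^ (p - 2) = N ^ (2 - p) * lam ^ (p - 2) := by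
      rw [Real.div_rpow hl0.le hN.le, div_eq_mul_inv, ← Real.rpow_neg hN.le, mul_comm]
      congr 2
      ring
    rw [← mul_assoc, e1] at a2
    rw [e2] at a3 a1
    have e3 : N ^ (2 - p) * ∑ e, β e * (lam ^ (p - 1) * (if i ≤ l e then 0 else |s e|) +
        lam ^ (p - 2) * (if i ≤ l e then s e else 0) ^ 2) =
        N ^ (2 - p) * lam ^ (p - 1) * ∑ e, β e * |big s l i e| +
          N ^ (2 - p) * lam ^ (p - 2) * ∑ e, β e * small s l i e ^ 2 := by
      rw [Finset.mul_sum, Finset.mul_sum, Finset.mul_sum, ← Finset.sum_add_distrib]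
      refine Finset.sum_congr rfl fun e _ => ?_
      simp only [big, small]
      split_ifs <;> simp <;> ring
    rw [e3]
    linarith
  refine (Finset.sum_le_sum fun i _ => step i).trans ?_
  rw [← Finset.mul_sum, Finset.sum_comm, mul_comm (C1 + 2 * C2), mul_assoc, Finset.mul_sum _ _ (C1 + 2 * C2)]
  refine mul_le_mul_of_nonneg_left (Finset.sum_le_sum fun e _ => ?_) (by positivity)
  rw [← Finset.mul_sum, Finset.sum_add_distrib]
  have b1 := tail_le (show 0 < p - 1 by linarith) (hl.lo e) n |s e| (abs_nonneg _)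
    (fun h => by simp [h])
  have b2 := head_le h1.le h2 (hl.hi e) n
  have e4 : |s e| ^ (p - 1) * |s e| = |s e| ^ p := by
    rw [← Real.rpow_add_one' (abs_nonneg _) (by linarith)]
    congr 1
    ring
  rw [e4, ← hC1] at b1
  rw [← hC2] at b2
  have := mul_le_mul_of_nonneg_left (add_le_add b1 b2) (hK.β0 e)
  linarith

theorem err_gt {p : ℝ} (h2 : 2 < p) : ∃ C : ℝ, 0 < C ∧
    ∀ {E : Type} [Fintype E] {α β : E → ℝ} {N : ℝ} {K : (E → ℝ) →ₗ[ℝ] (E → ℝ)}, Op α β N K →
    ∀ {s : E → ℝ} {J : ℕ} {l : E → ℕ}, Lev s J l → K s = 0 → ∀ n : ℕ,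
      ∑ e, α e * (∑ i ∈ range n, |K (small s l i) e|) ^ p ≤
        C * N ^ (p - 2) * ∑ e, β e * |s e| ^ p := by
  obtain ⟨C0, hC0, hsum⟩ := sum_pow_le h2
  have r1 := half_rpow_lt_one (show 0 < p - 2 by linarith)
  set C1 : ℝ := 1 / (1 - (1 / 2) ^ (p - 2)) with hC1
  have hC1p : 0 < C1 := by
    have : 0 < 1 - (1 / 2 : ℝ) ^ (p - 2) := by linarith
    positivity
  refine ⟨C0 * 2 ^ (p - 2) * C1, by positivity, fun {E} _ {α β N K} hK {s J l} hl hs n => ?_⟩
  have hN : 0 < N := by linarith [hK.N1]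
  have a1 : ∀ e, (∑ i ∈ range n, |K (small s l i) e|) ^ p ≤
      C0 * ∑ i ∈ range n, (2 * N * (1 / 2) ^ i) ^ (p - 2) * K (big s l i) e ^ 2 := by
    intro e
    have := hsum n (2 * N) (fun i => |K (small s l i) e|) (by positivity)
      (fun i => abs_nonneg _) (fun i => ?_)
    · refine this.trans (le_of_eq ?_)
      congr 1
      refine Finset.sum_congr rfl fun i _ => ?_
      rw [sq_abs, K_small hs, neg_sq]
    · have h3 := hK.linf (small s l i) (2 * (1 / 2) ^ i) (by positivity) (fun f => ?_) e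
      · linarith
      · unfold small
        split_ifs with h
        · have := pow_le_pow_of_le_one (show (0 : ℝ) ≤ 1 / 2 by norm_num) (by norm_num) h
          linarith [hl.hi f]
        · simp
  have a2 : ∑ e, α e * (∑ i ∈ range n, |K (small s l i) e|) ^ p ≤
      C0 * ∑ i ∈ range n, (2 * N * (1 / 2) ^ i) ^ (p - 2) * ∑ e, α e * K (big s l i) e ^ 2 := by
    refine (Finset.sum_le_sum fun e _ => mul_le_mul_of_nonneg_left (a1 e) (hK.α0 e)).trans
      (le_of_eq ?_)
    simp only [Finset.mul_sum]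
    rw [Finset.sum_comm]
    exact Finset.sum_congr rfl fun i _ => Finset.sum_congr rfl fun e _ => by ring
  have a3 : ∑ i ∈ range n, (2 * N * (1 / 2) ^ i) ^ (p - 2) * ∑ e, α e * K (big s l i) e ^ 2 ≤
      ∑ i ∈ range n, (2 * N * (1 / 2) ^ i) ^ (p - 2) * ∑ e, β e * big s l i e ^ 2 :=
    Finset.sum_le_sum fun i _ => mul_le_mul_of_nonneg_left (hK.l2 _) (by positivity)
  have a4 : ∑ i ∈ range n, (2 * N * (1 / 2) ^ i) ^ (p - 2) * ∑ e, β e * big s l i e ^ 2 =
      2 ^ (p - 2) * N ^ (p - 2) * ∑ e, β e * ∑ i ∈ range n,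
        ((1 / 2 : ℝ) ^ i) ^ (p - 2) * (if i ≤ l e then 0 else s e ^ 2) := by
    simp only [Finset.mul_sum]
    rw [Finset.sum_comm]
    refine Finset.sum_congr rfl fun e _ => Finset.sum_congr rfl fun i _ => ?_
    rw [Real.mul_rpow (by positivity) (by positivity), Real.mul_rpow (by positivity) hN.le]
    unfold big
    split_ifs <;> ring
  have a5 : ∑ e, β e * ∑ i ∈ range n,
      ((1 / 2 : ℝ) ^ i) ^ (p - 2) * (if i ≤ l e then 0 else s e ^ 2) ≤
      C1 * ∑ e, β e * |s e| ^ p := by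
    rw [Finset.mul_sum]
    refine Finset.sum_le_sum fun e _ => ?_
    have b1 := tail_le (show 0 < p - 2 by linarith) (hl.lo e) n (s e ^ 2) (sq_nonneg _)
      (fun h => by simp [h])
    have e4 : |s e| ^ (p - 2) * s e ^ 2 = |s e| ^ p := by
      rw [← sq_abs, ← Real.rpow_natCast, ← Real.rpow_add' (abs_nonneg _) (by push_cast; linarith)]
      congr 1
      push_cast
      ring
    rw [e4, ← hC1] at b1
    have := mul_le_mul_of_nonneg_left b1 (hK.β0 e)
    linarith
  rw [a4] at a3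
  have a6 := mul_le_mul_of_nonneg_left a5 (show 0 ≤ 2 ^ (p - 2) * N ^ (p - 2) by positivity)
  have a7 := mul_le_mul_of_nonneg_left (a3.trans a6) hC0.le
  refine a2.trans (a7.trans (le_of_eq ?_))
  ring

/-- the tent window -/
def om (H : ℕ) (k : ℤ) : ℤ := max 0 (min k (4 * H - k))

/-- the mass of the window -/
noncomputable def Om (H : ℕ) (p : ℝ) : ℝ := ∑ k ∈ range (4 * H), ((om H k : ℤ) : ℝ) ^ p

theorem om_nonneg (H : ℕ) (k : ℤ) : (0 : ℝ) ≤ (om H k : ℤ) := by
  have : 0 ≤ om H k := by unfold om; omega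
  exact_mod_cast this

theorem om_le (H : ℕ) (k : ℤ) : ((om H k : ℤ) : ℝ) ≤ 2 * H := by
  have : om H k ≤ 2 * H := by unfold om; omega
  exact_mod_cast this

theorem Om_ge (H : ℕ) {p : ℝ} (hp : 0 ≤ p) : (H : ℝ) * (H : ℝ) ^ p ≤ Om H p := by
  have h1 : Ico H (2 * H) ⊆ range (4 * H) := by
    intro k hk
    simp only [Finset.mem_Ico, Finset.mem_range] at hk ⊢
    omega
  refine le_trans ?_ (Finset.sum_le_sum_of_subset_of_nonneg h1 fun k _ _ =>
    Real.rpow_nonneg (om_nonneg H k) p)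
  have h2 : ∀ k ∈ Ico H (2 * H), (H : ℝ) ^ p ≤ ((om H k : ℤ) : ℝ) ^ p := by
    intro k hk
    simp only [Finset.mem_Ico] at hk
    refine Real.rpow_le_rpow (by positivity) ?_ hp
    have : (H : ℤ) ≤ om H k := by unfold om; omega
    exact_mod_cast this
  have h3 := Finset.card_nsmul_le_sum _ _ _ h2
  rw [Nat.card_Ico, nsmul_eq_mul] at h3
  have : 2 * H - H = H := by omega
  rwa [this] at h3

theorem sum_om (H : ℕ) {p : ℝ} (hp : 0 < p) {l M : ℕ} (hM : l + 4 * H ≤ M) :
    ∑ j ∈ range M, ((om H ((j : ℤ) - l) : ℤ) : ℝ) ^ p = Om H p := by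
  have h1 : Ico l (l + 4 * H) ⊆ range M := by
    intro k hk
    simp only [Finset.mem_Ico, Finset.mem_range] at hk ⊢
    omega
  rw [← Finset.sum_subset h1, Finset.sum_Ico_eq_sum_range, Om]
  · rw [Nat.add_sub_cancel_left]
    refine Finset.sum_congr rfl fun k _ => ?_
    congr 3
    push_cast
    ring
  · intro j _ hj
    simp only [Finset.mem_Ico] at hj
    have : om H ((j : ℤ) - l) = 0 := by unfold om; omega
    rw [this, Int.cast_zero, Real.zero_rpow hp.ne']

/-- increments of the window -/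
def dom (H j i : ℕ) : ℝ := ((om H ((j : ℤ) - i) : ℤ) : ℝ) - ((om H ((j : ℤ) - i + 1) : ℤ) : ℝ)

theorem abs_dom_le (H j i : ℕ) : |dom H j i| ≤ if i ≤ j ∧ j < i + 4 * H then 1 else 0 := by
  unfold dom
  rw [← Int.cast_sub, ← Int.cast_abs]
  split_ifs with h
  · have : |om H ((j : ℤ) - i) - om H ((j : ℤ) - i + 1)| ≤ 1 := by
      rw [abs_le]
      unfold om
      omega
    exact_mod_cast this
  · have : om H ((j : ℤ) - i) - om H ((j : ℤ) - i + 1) = 0 := by
      unfold om
      omega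
    rw [this]
    simp

theorem sum_dom_i (H j n : ℕ) : ∑ i ∈ range n, |dom H j i| ≤ 4 * H := by
  refine (Finset.sum_le_sum fun i _ => abs_dom_le H j i).trans ?_
  rw [← Finset.sum_filter, Finset.sum_const, nsmul_eq_mul, mul_one]
  have h1 : (range n).filter (fun i => i ≤ j ∧ j < i + 4 * H) ⊆ Ico (j + 1 - 4 * H) (j + 1) := by
    intro i hi
    simp only [Finset.mem_filter, Finset.mem_range, Finset.mem_Ico] at hi ⊢
    omega
  have h2 := Finset.card_le_card h1
  rw [Nat.card_Ico] at h2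
  have : ((range n).filter (fun i => i ≤ j ∧ j < i + 4 * H)).card ≤ 4 * H := by omega
  exact_mod_cast this

theorem sum_dom_j (H i n : ℕ) : ∑ j ∈ range n, |dom H j i| ≤ 4 * H := by
  refine (Finset.sum_le_sum fun j _ => abs_dom_le H j i).trans ?_
  rw [← Finset.sum_filter, Finset.sum_const, nsmul_eq_mul, mul_one]
  have h1 : (range n).filter (fun j => i ≤ j ∧ j < i + 4 * H) ⊆ Ico i (i + 4 * H) := by
    intro j hj
    simp only [Finset.mem_filter, Finset.mem_range, Finset.mem_Ico] at hj ⊢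
    omega
  have h2 := Finset.card_le_card h1
  rw [Nat.card_Ico] at h2
  have : ((range n).filter (fun j => i ≤ j ∧ j < i + 4 * H)).card ≤ 4 * H := by omega
  exact_mod_cast this

/-- a band-limited piece -/
def piece {E : Type} (s : E → ℝ) (l : E → ℕ) (H j : ℕ) : E → ℝ :=
  fun f => s f * ((om H ((j : ℤ) - l f) : ℤ) : ℝ)

theorem K_piece {E : Type} {K : (E → ℝ) →ₗ[ℝ] (E → ℝ)} {s : E → ℝ} (hs : K s = 0) {J : ℕ}
    {l : E → ℕ} (hl : ∀ e, l e ≤ J) (H j : ℕ) (e : E) :
    K (piece s l H j) e = ∑ i ∈ range (J + 1), dom H j i * K (small s l i) e := by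
  have h1 : piece s l H j = ∑ i ∈ range (J + 1), dom H j i • small s l i +
      ((om H ((j : ℤ) + 1) : ℤ) : ℝ) • s := by
    funext f
    simp only [piece, Pi.add_apply, Finset.sum_apply, Pi.smul_apply, smul_eq_mul, small]
    have h2 : ∑ i ∈ range (J + 1), dom H j i * (if i ≤ l f then s f else 0) =
        ∑ i ∈ range (l f + 1), dom H j i * s f := by
      have h3 : range (l f + 1) ⊆ range (J + 1) := by
        intro i hi
        have := hl f
        simp only [Finset.mem_range] at hi ⊢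
        omega
      rw [← Finset.sum_subset h3]
      · refine Finset.sum_congr rfl fun i hi => ?_
        rw [if_pos (by simp only [Finset.mem_range] at hi; omega)]
      · intro i _ hi
        rw [if_neg (by simp only [Finset.mem_range] at hi; omega), mul_zero]
    have h4 := Finset.sum_range_sub (fun i : ℕ => ((om H ((j : ℤ) + 1 - i) : ℤ) : ℝ)) (l f + 1)
    have h5 : ∑ i ∈ range (l f + 1), dom H j i = ∑ i ∈ range (l f + 1),
        (((om H ((j : ℤ) + 1 - (i + 1 : ℕ)) : ℤ) : ℝ) - ((om H ((j : ℤ) + 1 - i) : ℤ) : ℝ)) := by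
      refine Finset.sum_congr rfl fun i _ => ?_
      unfold dom
      congr 3
      · push_cast
        ring
      · ring
    rw [h2, ← Finset.sum_mul, h5, h4]
    have e1 : (j : ℤ) + 1 - ((l f + 1 : ℕ) : ℤ) = (j : ℤ) - l f := by
      push_cast
      ring
    rw [e1]
    simp only [Nat.cast_zero, sub_zero]
    ring
  rw [h1, map_add, map_sum, map_smul, hs]
  simp [Finset.sum_apply]

theorem abs_K_piece {E : Type} {K : (E → ℝ) →ₗ[ℝ] (E → ℝ)} {s : E → ℝ} (hs : K s = 0) {J : ℕ}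
    {l : E → ℕ} (hl : ∀ e, l e ≤ J) (H j : ℕ) (e : E) :
    |K (piece s l H j) e| ≤ ∑ i ∈ range (J + 1), |dom H j i| * |K (small s l i) e| := by
  rw [K_piece hs hl]
  refine (Finset.abs_sum_le_sum_abs _ _).trans (le_of_eq ?_)
  exact Finset.sum_congr rfl fun i _ => abs_mul _ _

/-- the exponent -/
noncomputable def gam (p : ℝ) : ℝ := if p < 2 then 2 - p else 1 - 2 / p

theorem band {p : ℝ} (h1 : 1 < p) (h2 : p ≠ 2) {δ : ℝ} (hδ : 0 < δ) : ∃ c : ℝ, 0 < c ∧
    ∀ {E : Type} [Fintype E] {α β : E → ℝ} {N : ℝ} {K : (E → ℝ) →ₗ[ℝ] (E → ℝ)}, Op α β N K →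
    ∀ {s : E → ℝ} {J : ℕ} {l : E → ℕ}, Lev s J l → K s = 0 → ∀ H M : ℕ, c * N ^ gam p ≤ H →
      ∑ j ∈ range M, ∑ e, α e * |K (piece s l H j) e| ^ p ≤
        δ * Om H p * ∑ e, β e * |s e| ^ p := by
  have hp0 : 0 < p := by linarith
  rcases lt_or_gt_of_ne h2 with h3 | h3
  · obtain ⟨C, hC, herr⟩ := err_lt h1 h3
    refine ⟨C * 4 ^ p / δ, by positivity, fun {E} _ {α β N K} hK {s J l} hl hs H M hH => ?_⟩
    rw [gam, if_pos h3] at hH
    have hN : 0 < N := by linarith [hK.N1]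
    have hS : 0 ≤ ∑ e, β e * |s e| ^ p :=
      Finset.sum_nonneg fun e _ => mul_nonneg (hK.β0 e) (by positivity)
    have a1 : ∀ e, ∑ j ∈ range M, |K (piece s l H j) e| ^ p ≤
        (4 * H : ℝ) ^ p * ∑ i ∈ range (J + 1), |K (small s l i) e| ^ p := by
      intro e
      have b1 : ∀ j, |K (piece s l H j) e| ^ p ≤ (4 * H : ℝ) ^ (p - 1) *
          ∑ i ∈ range (J + 1), |dom H j i| * |K (small s l i) e| ^ p := fun j =>
        (Real.rpow_le_rpow (abs_nonneg _) (abs_K_piece hs hl.le H j e) hp0.le).trans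
          (wpow _ h1.le _ _ (fun i => abs_nonneg _) (fun i => abs_nonneg _) (sum_dom_i H j _))
      refine (Finset.sum_le_sum fun j _ => b1 j).trans ?_
      have e1 : (4 * H : ℝ) ^ p = (4 * H : ℝ) ^ (p - 1) * (4 * H) := by
        rw [← Real.rpow_add_one' (by positivity) (by linarith)]
        congr 1
        ring
      rw [← Finset.mul_sum, Finset.sum_comm, e1, mul_assoc]
      refine mul_le_mul_of_nonneg_left ?_ (by positivity)
      rw [Finset.mul_sum]
      refine Finset.sum_le_sum fun i _ => ?_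
      rw [← Finset.sum_mul]
      exact mul_le_mul_of_nonneg_right (sum_dom_j H i M) (by positivity)
    have a2 : ∑ j ∈ range M, ∑ e, α e * |K (piece s l H j) e| ^ p ≤
        (4 * H : ℝ) ^ p * ∑ i ∈ range (J + 1), ∑ e, α e * |K (small s l i) e| ^ p := by
      rw [Finset.sum_comm, Finset.sum_comm (s := range (J + 1)), Finset.mul_sum]
      refine Finset.sum_le_sum fun e _ => ?_
      rw [← Finset.mul_sum, ← Finset.mul_sum]
      have := mul_le_mul_of_nonneg_left (a1 e) (hK.α0 e)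
      linarith
    have a3 := mul_le_mul_of_nonneg_left (herr hK hl hs (J + 1))
      (show 0 ≤ (4 * H : ℝ) ^ p by positivity)
    refine a2.trans (a3.trans ?_)
    rw [← mul_assoc]
    refine mul_le_mul_of_nonneg_right ?_ hS
    have a4 := mul_le_mul_of_nonneg_left (Om_ge H hp0.le) hδ.le
    refine le_trans ?_ a4
    rw [Real.mul_rpow (by norm_num) (by positivity)]
    rw [div_mul_eq_mul_div, div_le_iff₀ hδ] at hH
    have a5 := mul_le_mul_of_nonneg_right hH (show 0 ≤ (H : ℝ) ^ p by positivity)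
    nlinarith
  · obtain ⟨C, hC, herr⟩ := err_gt h3
    refine ⟨1 + 4 * C / δ, by positivity, fun {E} _ {α β N K} hK {s J l} hl hs H M hH => ?_⟩
    rw [gam, if_neg (by linarith)] at hH
    have hN : 0 < N := by linarith [hK.N1]
    have hS : 0 ≤ ∑ e, β e * |s e| ^ p :=
      Finset.sum_nonneg fun e _ => mul_nonneg (hK.β0 e) (by positivity)
    have a1 : ∀ e, ∑ j ∈ range M, |K (piece s l H j) e| ^ p ≤
        (4 * H : ℝ) * (∑ i ∈ range (J + 1), |K (small s l i) e|) ^ p := by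
      intro e
      set S := ∑ i ∈ range (J + 1), |K (small s l i) e| with hSdef
      have hS0 : 0 ≤ S := Finset.sum_nonneg fun i _ => abs_nonneg _
      have b1 : ∀ j, |K (piece s l H j) e| ^ p ≤ S ^ (p - 1) *
          ∑ i ∈ range (J + 1), |dom H j i| * |K (small s l i) e| := by
        intro j
        have b2 := abs_K_piece hs hl.le H j e
        have b3 : ∑ i ∈ range (J + 1), |dom H j i| * |K (small s l i) e| ≤ S := by
          refine Finset.sum_le_sum fun i _ => mul_le_of_le_one_left (abs_nonneg _) ?_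
          refine (abs_dom_le H j i).trans ?_
          split_ifs <;> norm_num
        have e1 : |K (piece s l H j) e| ^ p =
            |K (piece s l H j) e| ^ (p - 1) * |K (piece s l H j) e| := by
          rw [← Real.rpow_add_one' (abs_nonneg _) (by linarith)]
          congr 1
          ring
        rw [e1]
        exact mul_le_mul (Real.rpow_le_rpow (abs_nonneg _) (b2.trans b3) (by linarith)) b2
          (abs_nonneg _) (by positivity)
      refine (Finset.sum_le_sum fun j _ => b1 j).trans ?_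
      have e1 : S ^ p = S ^ (p - 1) * S := by
        rw [← Real.rpow_add_one' hS0 (by linarith)]
        congr 1
        ring
      rw [← Finset.mul_sum, Finset.sum_comm, e1, mul_left_comm]
      refine mul_le_mul_of_nonneg_left ?_ (by positivity)
      rw [hSdef, Finset.mul_sum]
      refine Finset.sum_le_sum fun i _ => ?_
      rw [← Finset.sum_mul]
      exact mul_le_mul_of_nonneg_right (sum_dom_j H i M) (abs_nonneg _)
    have a2 : ∑ j ∈ range M, ∑ e, α e * |K (piece s l H j) e| ^ p ≤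
        (4 * H : ℝ) * ∑ e, α e * (∑ i ∈ range (J + 1), |K (small s l i) e|) ^ p := by
      rw [Finset.sum_comm, Finset.mul_sum]
      refine Finset.sum_le_sum fun e _ => ?_
      rw [← Finset.mul_sum]
      have := mul_le_mul_of_nonneg_left (a1 e) (hK.α0 e)
      linarith
    have a3 := mul_le_mul_of_nonneg_left (herr hK hl hs (J + 1))
      (show 0 ≤ (4 * H : ℝ) by positivity)
    refine a2.trans (a3.trans ?_)
    rw [← mul_assoc]
    refine mul_le_mul_of_nonneg_right ?_ hS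
    have a4 := mul_le_mul_of_nonneg_left (Om_ge H hp0.le) hδ.le
    refine le_trans ?_ a4
    have a5 := Real.rpow_le_rpow (by positivity) hH hp0.le
    rw [Real.mul_rpow (by positivity) (by positivity), ← Real.rpow_mul hN.le] at a5
    have e2 : (1 - 2 / p) * p = p - 2 := by field_simp
    rw [e2] at a5
    have a6 : 1 + 4 * C / δ ≤ (1 + 4 * C / δ) ^ p := by
      have := Real.rpow_le_rpow_of_exponent_le
        (show (1 : ℝ) ≤ 1 + 4 * C / δ from le_add_of_nonneg_right (by positivity)) h1.le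
      rwa [Real.rpow_one] at this
    have a7 : 4 * C / δ * N ^ (p - 2) ≤ (H : ℝ) ^ p := by
      refine le_trans (mul_le_mul_of_nonneg_right ?_ (by positivity)) a5
      linarith
    rw [div_mul_eq_mul_div, div_le_iff₀ hδ] at a7
    have a8 := mul_le_mul_of_nonneg_left a7 (show (0 : ℝ) ≤ H by positivity)
    nlinarith

end Crest.Agent.R232
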