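import Crest.Agent.R232.Rand
import Crest.Agent.R232.Band

/-! Row 232: sparse random signed sums and their projections. -/

open Finset

namespace Crest.Agent.R232

set_option linter.unusedSectionVars false

theorem rosenthal {p : ℝ} (hp : 0 < p) : ∃ C : ℝ, 1 ≤ C ∧
    ∀ {T O : Type} [Fintype T] [DecidableEq T] [Fintype O] {ρ : O → ℝ}, (∀ o, 0 ≤ ρ o) →
    ∑ o, ρ o = 1 → ∀ (z : T → O → ℝ) (V : ℝ), 0 < V → ∑ t, ∑ o, ρ o * z t o ^ 2 ≤ V →
    Ex (sym ρ) (fun w => |Rs z univ w| ^ p) ≤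
      C * (∑ t, ∑ o, ρ o * |z t o| ^ p + if p < 2 then 0 else V ^ (p / 2)) := by
  by_cases h : p < 2
  · refine ⟨1, le_rfl, fun {T O} _ _ _ {ρ} h0 h1 z V _ _ => ?_⟩
    rw [if_pos h, add_zero, one_mul]
    exact moment_le h0 h1 hp h.le z univ
  · obtain ⟨C, hC, h2⟩ := moment_ge (not_lt.mp h)
    refine ⟨C, hC, fun {T O} _ _ _ {ρ} h0 h1 z V hV hz => ?_⟩
    rw [if_neg h]
    exact h2 h0 h1 z V hV hz

section
variable {T O : Type} [Fintype T] [DecidableEq T] [Fintype O]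

open Classical in
/-- the number of non-zero terms -/
noncomputable def cnt (z : T → O → ℝ) (w : T → Bool × O) : ℕ :=
  (univ.filter fun t => z t (w t).2 ≠ 0).card

/-- the sum, cut off at collisions -/
noncomputable def Rc (z : T → O → ℝ) (w : T → Bool × O) : ℝ :=
  if cnt z w ≤ 1 then Rs z univ w else 0

/-- the collision weight -/
noncomputable def col (p : ℝ) (z : T → O → ℝ) (w : T → Bool × O) : ℝ :=
  if cnt z w ≤ 1 then 0 else (cnt z w : ℝ) ^ p

open Classical in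
theorem sum_eq_filter (z : T → O → ℝ) (w : T → Bool × O) (F : T → ℝ)
    (hF : ∀ t, z t (w t).2 = 0 → F t = 0) :
    ∑ t, F t = ∑ t ∈ univ.filter (fun t => z t (w t).2 ≠ 0), F t := by
  rw [Finset.sum_filter]
  refine Finset.sum_congr rfl fun t _ => ?_
  split_ifs with h
  · rfl
  · exact hF t (not_not.mp h)

theorem abs_Rs_le {z : T → O → ℝ} {a : ℝ} (ha : ∀ t o, |z t o| ≤ a) (w : T → Bool × O) :
    |Rs z univ w| ≤ cnt z w * a := by
  unfold Rs cnt
  rw [sum_eq_filter z w _ (fun t h => by rw [h, mul_zero])]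
  refine (Finset.abs_sum_le_sum_abs _ _).trans ?_
  rw [← nsmul_eq_mul]
  refine Finset.sum_le_card_nsmul _ _ _ fun t _ => ?_
  rw [abs_mul, abs_sg, one_mul]
  exact ha _ _

theorem abs_Rc_le {z : T → O → ℝ} {a : ℝ} (ha0 : 0 ≤ a) (ha : ∀ t o, |z t o| ≤ a)
    (w : T → Bool × O) : |Rc z w| ≤ a := by
  unfold Rc
  split_ifs with h
  · have h1 : (cnt z w : ℝ) ≤ 1 := by exact_mod_cast h
    have := abs_Rs_le ha w
    nlinarith
  · simpa using ha0

open Classical in
theorem Rc_pow {z : T → O → ℝ} {a p : ℝ} (hp : 1 ≤ p) (ha0 : 0 ≤ a) (ha : ∀ t o, |z t o| ≤ a)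
    (w : T → Bool × O) :
    |Rc z w| ^ p ≤ ∑ t, |z t (w t).2| ^ p ∧
      ∑ t, |z t (w t).2| ^ p ≤ |Rc z w| ^ p + a ^ p * col p z w := by
  have hp0 : 0 < p := by linarith
  have hz : ∀ t, z t (w t).2 = 0 → |z t (w t).2| ^ p = 0 := fun t h => by
    rw [h, abs_zero, Real.zero_rpow hp0.ne']
  unfold Rc col
  split_ifs with h
  · have : |Rs z univ w| ^ p = ∑ t, |z t (w t).2| ^ p := by
      unfold Rs
      rw [sum_eq_filter z w _ (fun t h => by rw [h, mul_zero]), sum_eq_filter z w _ hz]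
      unfold cnt at h
      rcases Nat.le_one_iff_eq_zero_or_eq_one.mp h with h2 | h2
      · rw [Finset.card_eq_zero.mp h2]
        simp [Real.zero_rpow hp0.ne']
      · obtain ⟨t, ht⟩ := Finset.card_eq_one.mp h2
        rw [ht]
        simp [abs_mul, abs_sg]
    rw [this]
    simp
  · rw [abs_zero, Real.zero_rpow hp0.ne', zero_add]
    refine ⟨Finset.sum_nonneg fun t _ => by positivity, ?_⟩
    rw [sum_eq_filter z w _ hz]
    have h1 : (1 : ℝ) ≤ cnt z w := by exact_mod_cast (by omega : 1 ≤ cnt z w)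
    have h2 : (cnt z w : ℝ) ≤ (cnt z w : ℝ) ^ p := by
      have := Real.rpow_le_rpow_of_exponent_le h1 hp
      rwa [Real.rpow_one] at this
    have h3 := Finset.sum_le_card_nsmul _ (fun t => |z t (w t).2| ^ p) (a ^ p)
      (fun t (_ : t ∈ univ.filter (fun t => z t (w t).2 ≠ 0)) =>
        Real.rpow_le_rpow (abs_nonneg _) (ha _ _) hp0.le)
    rw [nsmul_eq_mul] at h3
    have h4 : 0 ≤ a ^ p := by positivity
    refine h3.trans ?_
    rw [mul_comm]
    exact mul_le_mul_of_nonneg_left h2 h4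

theorem diff_pow {z : T → O → ℝ} {a p : ℝ} (hp : 0 < p) (ha0 : 0 ≤ a) (ha : ∀ t o, |z t o| ≤ a)
    (w : T → Bool × O) : |Rc z w - Rs z univ w| ^ p ≤ a ^ p * col p z w := by
  unfold Rc col
  split_ifs with h
  · simp [Real.zero_rpow hp.ne']
  · rw [zero_sub, abs_neg, mul_comm, ← Real.mul_rpow (by positivity) ha0]
    exact Real.rpow_le_rpow (abs_nonneg _) (abs_Rs_le ha w) hp.le

end

open Classical in
theorem col_le (p : ℝ) : ∃ C : ℝ, 1 ≤ C ∧
    ∀ {T O : Type} [Fintype T] [DecidableEq T] [Fintype O] {ρ : O → ℝ}, (∀ o, 0 ≤ ρ o) →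
    ∑ o, ρ o = 1 → ∀ (z : T → O → ℝ) (q : ℝ), q ≤ 1 / 2 →
    ∑ t, ∑ o, ρ o * (if z t o ≠ 0 then 1 else 0) ≤ q → Ex (sym ρ) (col p z) ≤ C * q ^ 2 := by
  obtain ⟨C, hC, hk⟩ := count_pow_le p
  refine ⟨1 + 4 * C, by linarith, fun {T O} _ _ _ {ρ} h0 h1 z q hq hz => ?_⟩
  set r : T → ℝ := fun t => ∑ o, ρ o * (if z t o ≠ 0 then 1 else 0) with hr
  have hr0 : ∀ t, 0 ≤ r t := fun t => Finset.sum_nonneg fun o _ =>
    mul_nonneg (h0 o) (by split_ifs <;> norm_num)
  have hR0 : 0 ≤ ∑ t, r t := Finset.sum_nonneg fun t _ => hr0 t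
  have e1 : ∀ w : T → Bool × O, (3 : ℝ) ^ cnt z w =
      ∏ t, (1 + 2 * (if z t (w t).2 ≠ 0 then 1 else 0 : ℝ)) := by
    intro w
    unfold cnt
    rw [← Finset.prod_const, Finset.prod_filter]
    refine Finset.prod_congr rfl fun t _ => ?_
    split_ifs <;> norm_num
  have e2 : ∀ w : T → Bool × O, (cnt z w : ℝ) = ∑ t, (if z t (w t).2 ≠ 0 then 1 else 0 : ℝ) := by
    intro w
    unfold cnt
    rw [← Finset.sum_filter]
    simp
  have s1 : ∀ (t : T) (c : ℝ), ∑ i : Bool × O, sym ρ i *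
      (c + 2 * (if z t i.2 ≠ 0 then 1 else 0 : ℝ)) = c + 2 * r t := by
    intro t c
    rw [sum_sym ρ (fun i => c + 2 * (if z t i.2 ≠ 0 then 1 else 0 : ℝ))]
    have : ∀ o, ρ o * ((c + 2 * (if z t o ≠ 0 then 1 else 0 : ℝ) +
        (c + 2 * (if z t o ≠ 0 then 1 else 0 : ℝ))) / 2) =
        c * ρ o + 2 * (ρ o * (if z t o ≠ 0 then 1 else 0 : ℝ)) := fun o => by ring
    simp only [this]
    rw [Finset.sum_add_distrib, ← Finset.mul_sum, ← Finset.mul_sum, h1, mul_one]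
  have a1 : Ex (sym ρ) (fun w : T → Bool × O => (3 : ℝ) ^ cnt z w) = ∏ t, (1 + 2 * r t) := by
    simp only [e1]
    rw [Ex_prod (π := sym ρ) (fun t i => 1 + 2 * (if z t i.2 ≠ 0 then 1 else 0 : ℝ))]
    exact Finset.prod_congr rfl fun t _ => s1 t 1
  have a2 : Ex (sym ρ) (fun w : T → Bool × O => 2 * (cnt z w : ℝ)) = 2 * ∑ t, r t := by
    simp only [e2, Finset.mul_sum]
    rw [Ex_sum]
    refine Finset.sum_congr rfl fun t _ => ?_
    rw [Ex_single (sym_sum_one h1) t (fun i => 2 * (if z t i.2 ≠ 0 then 1 else 0 : ℝ))]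
    have := s1 t 0
    simp only [zero_add] at this
    rw [this, hr, Finset.mul_sum]
  have a3 : ∏ t, (1 + 2 * r t) ≤ Real.exp (2 * ∑ t, r t) := by
    rw [Finset.mul_sum, Real.exp_sum]
    refine Finset.prod_le_prod (fun t _ => by linarith [hr0 t]) fun t _ => ?_
    linarith [Real.add_one_le_exp (2 * r t)]
  have a4 := Real.abs_exp_sub_one_sub_id_le (x := 2 * ∑ t, r t)
    (by rw [abs_of_nonneg (by linarith)]; linarith)
  have a5 : Ex (sym ρ) (col p z) ≤
      Ex (sym ρ) (fun w : T → Bool × O => C * ((3 : ℝ) ^ cnt z w - 1 - 2 * (cnt z w : ℝ))) := by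
    refine Ex_mono (sym_nonneg h0) fun w => ?_
    unfold col
    split_ifs with h
    · have : cnt z w = 0 ∨ cnt z w = 1 := by omega
      rcases this with h | h <;> rw [h] <;> norm_num
    · exact hk _ (by omega)
  rw [Ex_mul, Ex_sub, Ex_sub, a1, a2, Ex_const (sym_sum_one h1)] at a5
  have a6 := (le_abs_self _).trans a4
  have a7 : (∑ t, r t) ^ 2 ≤ q ^ 2 := pow_le_pow_left₀ hR0 hz 2
  have a8 : ∏ t, (1 + 2 * r t) - 1 - 2 * ∑ t, r t ≤ 4 * q ^ 2 := by nlinarith
  have a9 := mul_le_mul_of_nonneg_left a8 hC.le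
  nlinarith [sq_nonneg q]

theorem arith_pt {μ m ν R A B c Y Z : ℝ} (hA : 1 ≤ A) (hB : 1 ≤ B) (hm0 : 0 ≤ m) (hR0 : 0 ≤ R)
    (hY : 0 ≤ Y) (b1 : ν ≤ m) (b2 : m ≤ ν + Y) (b3 : μ ≤ A * ν + B * R) (b4 : ν ≤ A * μ + B * R)
    (hR : R ≤ Z) (hc : m ≤ c) : |μ - m| ≤ (A - 1) * c + Y + B * Z := by
  have b5 := mul_le_mul_of_nonneg_left hR (show 0 ≤ B by linarith)
  have b6 := mul_le_mul_of_nonneg_left hc (show 0 ≤ A - 1 by linarith)
  have b7 := mul_le_mul_of_nonneg_left b1 (show 0 ≤ A by linarith)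
  have b8 := mul_nonneg (show 0 ≤ A - 1 by linarith) hm0
  have b9 := mul_nonneg (show 0 ≤ B by linarith) hR0
  rw [abs_le]
  constructor
  · rcases le_total μ m with h | h
    · have := mul_le_mul_of_nonneg_left h (show 0 ≤ A - 1 by linarith)
      linarith
    · linarith
  · linarith

theorem arith_fin {W B P2 CR CC X Y D S Np : ℝ} (hB : 1 ≤ B) (h2 : 1 ≤ P2) (hCR : 1 ≤ CR)
    (hCC : 1 ≤ CC) (hX : 0 ≤ X) (hY : 0 ≤ Y) (hD : 0 ≤ D) (hS : S ≤ D) (hN : 1 ≤ Np) :
    W + CC * Y + B * (P2 * (CR * X + Np * (CC * Y))) + B * P2 * CR * S ≤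
      W + B * (P2 * (CR + 2 * CC)) * (D + X + Np * Y) := by
  have hG1 : 1 ≤ B * P2 := one_le_mul_of_one_le_of_one_le hB h2
  have c1 := mul_le_mul_of_nonneg_left hS (show 0 ≤ B * P2 * CR by positivity)
  have c0 : 1 ≤ B * P2 * Np := one_le_mul_of_one_le_of_one_le hG1 hN
  have c2 := mul_le_mul_of_nonneg_right c0 (show 0 ≤ CC * Y by positivity)
  have h4 : 0 ≤ B * P2 * (CC * (D + X)) := by positivity
  have h5 : 0 ≤ B * P2 * (CR * (Np * Y)) := by positivity
  linarith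

open Classical in
theorem core {p : ℝ} (hp : 1 ≤ p) : ∃ C : ℝ, 1 ≤ C ∧ ∀ τ : ℝ, 0 < τ →
    ∀ {E T O : Type} [Fintype E] [Fintype T] [DecidableEq T] [Fintype O] {ρ : O → ℝ},
    (∀ o, 0 ≤ ρ o) → ∑ o, ρ o = 1 → ∀ {α β : E → ℝ} {N : ℝ} {K : (E → ℝ) →ₗ[ℝ] (E → ℝ)},
    Op α β N K → ∑ e, α e = 1 → ∀ (y : T → O → E → ℝ) (a q c D : ℝ), 0 < a → 0 < q → q ≤ 1 / 2 →
    (∀ t o e, |y t o e| ≤ a) →
    (∀ e, ∑ t, ∑ o, ρ o * (if y t o e ≠ 0 then 1 else 0) ≤ q) →
    (∀ e, ∑ t, ∑ o, ρ o * |y t o e| ^ p ≤ c) →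
    (∑ t, ∑ o, ρ o * ∑ e, α e * |K (y t o) e| ^ p ≤ D) →
    ∑ e, α e * |Ex (sym ρ) (fun w => |Rc (fun t o => y t o e) w +
        K (fun f => Rc (fun t o => y t o f) w) e| ^ p) - ∑ t, ∑ o, ρ o * |y t o e| ^ p| ≤
      ((1 + τ) ^ p - 1) * c + (1 + 1 / τ) ^ p * C *
        (D + (if p < 2 then 0 else (N ^ 2 * a ^ 2 * q) ^ (p / 2)) + N ^ p * a ^ p * q ^ 2) := by
  have hp0 : 0 < p := by linarith
  obtain ⟨CR, hCR, hros⟩ := rosenthal hp0
  obtain ⟨CC, hCC, hcol⟩ := col_le p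
  have h2p : (1 : ℝ) ≤ 2 ^ p := Real.one_le_rpow (by norm_num) hp0.le
  refine ⟨2 ^ p * (CR + 2 * CC), by nlinarith, fun τ hτ {E T O} _ _ _ _ {ρ} h0 h1 {α β N K} hK hα
    y a q c D ha hq hq2 hy hnz hc hD => ?_⟩
  have hN : 0 < N := by linarith [hK.N1]
  have s0 := sym_nonneg h0
  have s1 := sym_sum_one h1
  obtain ⟨k, k0, k1, k2⟩ := hK.ker
  set B := (1 + 1 / τ) ^ p with hB
  set A := (1 + τ) ^ p with hA
  have hA1 : 1 ≤ A := Real.one_le_rpow (by linarith) hp0.le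
  have hB1 : 1 ≤ B := Real.one_le_rpow (le_add_of_nonneg_right (by positivity)) hp0.le
  have hNp : 1 ≤ N ^ p := Real.one_le_rpow hK.N1 hp0.le
  set X : ℝ := if p < 2 then 0 else (N ^ 2 * a ^ 2 * q) ^ (p / 2) with hX
  have hX0 : 0 ≤ X := by
    rw [hX]
    split_ifs <;> positivity
  set Y : ℝ := a ^ p * q ^ 2 with hY
  have hY0 : 0 ≤ Y := by positivity
  have hcl : ∀ e, Ex (sym ρ) (fun w => a ^ p * col p (fun t o => y t o e) w) ≤ CC * Y := by
    intro e
    rw [Ex_mul]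
    have := mul_le_mul_of_nonneg_left (hcol h0 h1 (fun t o => y t o e) q hq2 (hnz e))
      (show 0 ≤ a ^ p by positivity)
    rw [hY]
    linarith
  have hmom : ∀ e, Ex (sym ρ) (fun w : T → Bool × O => ∑ t, |y t (w t).2 e| ^ p) =
      ∑ t, ∑ o, ρ o * |y t o e| ^ p := by
    intro e
    rw [Ex_sum]
    refine Finset.sum_congr rfl fun t _ => ?_
    rw [Ex_single s1 t (fun i => |y t i.2 e| ^ p), sum_sym ρ (fun i => |y t i.2 e| ^ p)]
    exact Finset.sum_congr rfl fun o _ => by ring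
  have hsplit : ∀ w e, K (fun f => Rc (fun t o => y t o f) w) e =
      Rs (fun t o => K (y t o) e) univ w +
        K (fun f => Rc (fun t o => y t o f) w - Rs (fun t o => y t o f) univ w) e := by
    intro w e
    have e1 : (fun f => Rc (fun t o => y t o f) w) = ∑ t, sg (w t).1 • y t (w t).2 +
        fun f => Rc (fun t o => y t o f) w - Rs (fun t o => y t o f) univ w := by
      funext f
      simp [Rs, Finset.sum_apply]
    rw [e1, map_add, map_sum]
    simp [Rs, Finset.sum_apply]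
  have hE2 : ∀ e, Ex (sym ρ) (fun w => |K (fun f => Rc (fun t o => y t o f) w -
      Rs (fun t o => y t o f) univ w) e| ^ p) ≤ N ^ p * (CC * Y) := by
    intro e
    have b1 : Ex (sym ρ) (fun w => |K (fun f => Rc (fun t o => y t o f) w -
        Rs (fun t o => y t o f) univ w) e| ^ p) ≤
        Ex (sym ρ) (fun w => N ^ (p - 1) * ∑ f, k e f * (a ^ p * col p (fun t o => y t o f) w)) := by
      refine Ex_mono s0 fun w => ?_
      refine (Real.rpow_le_rpow (abs_nonneg _) (k2 _ e) hp0.le).trans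
        ((wpow _ hp _ _ (k0 e) (fun f => abs_nonneg _) (k1 e)).trans ?_)
      refine mul_le_mul_of_nonneg_left (Finset.sum_le_sum fun f _ =>
        mul_le_mul_of_nonneg_left ?_ (k0 e f)) (by positivity)
      exact diff_pow hp0 ha.le (fun t o => hy t o f) w
    rw [Ex_mul, Ex_sum] at b1
    have b2 : ∑ f, Ex (sym ρ) (fun w => k e f * (a ^ p * col p (fun t o => y t o f) w)) ≤
        N * (CC * Y) := by
      refine le_trans (Finset.sum_le_sum fun f _ => ?_)
        (le_trans (le_of_eq (Finset.sum_mul _ _ _).symm)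
          (mul_le_mul_of_nonneg_right (k1 e) (by positivity)))
      rw [Ex_mul]
      exact mul_le_mul_of_nonneg_left (hcl f) (k0 e f)
    have e1 : N ^ p = N ^ (p - 1) * N := by
      rw [← Real.rpow_add_one hN.ne']
      congr 1
      ring
    rw [e1, mul_assoc]
    exact b1.trans (mul_le_mul_of_nonneg_left b2 (by positivity))
  have hE1 : ∀ e, Ex (sym ρ) (fun w => |Rs (fun t o => K (y t o) e) univ w| ^ p) ≤
      CR * (∑ t, ∑ o, ρ o * |K (y t o) e| ^ p + X) := by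
    intro e
    refine hros h0 h1 _ _ (by positivity) ?_
    have b1 : ∀ t o, K (y t o) e ^ 2 ≤
        N * ∑ f, k e f * (a ^ 2 * (if y t o f ≠ 0 then 1 else 0)) := by
      intro t o
      have b2 := wpow univ (p := 2) (by norm_num) (k e) (fun f => |y t o f|) (k0 e)
        (fun f => abs_nonneg _) (k1 e)
      have e2 : (2 : ℝ) - 1 = 1 := by norm_num
      simp only [Real.rpow_two, e2, Real.rpow_one] at b2
      rw [← sq_abs]
      refine (pow_le_pow_left₀ (abs_nonneg _) (k2 _ e) 2).trans (b2.trans ?_)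
      refine mul_le_mul_of_nonneg_left (Finset.sum_le_sum fun f _ =>
        mul_le_mul_of_nonneg_left ?_ (k0 e f)) hN.le
      split_ifs with h
      · rw [mul_one]
        exact pow_le_pow_left₀ (abs_nonneg _) (hy t o f) 2
      · rw [not_not.mp h]
        simp
    have b3 : ∑ t, ∑ o, ρ o * K (y t o) e ^ 2 ≤
        ∑ t, ∑ o, ρ o * (N * ∑ f, k e f * (a ^ 2 * (if y t o f ≠ 0 then 1 else 0))) :=
      Finset.sum_le_sum fun t _ => Finset.sum_le_sum fun o _ =>
        mul_le_mul_of_nonneg_left (b1 t o) (h0 o)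
    have b4 : ∑ t, ∑ o, ρ o * (N * ∑ f, k e f * (a ^ 2 * (if y t o f ≠ 0 then 1 else 0))) =
        N * a ^ 2 * ∑ f, k e f * ∑ t, ∑ o, ρ o * (if y t o f ≠ 0 then 1 else 0) := by
      simp only [Finset.mul_sum]
      rw [Finset.sum_comm (s := (univ : Finset E))]
      refine Finset.sum_congr rfl fun t _ => ?_
      rw [Finset.sum_comm (s := (univ : Finset E))]
      exact Finset.sum_congr rfl fun o _ => Finset.sum_congr rfl fun f _ => by ring
    have b5 : ∑ f, k e f * ∑ t, ∑ o, ρ o * (if y t o f ≠ 0 then 1 else 0) ≤ N * q :=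
      le_trans (Finset.sum_le_sum fun f _ => mul_le_mul_of_nonneg_left (hnz f) (k0 e f))
        (le_trans (le_of_eq (Finset.sum_mul _ _ _).symm)
          (mul_le_mul_of_nonneg_right (k1 e) hq.le))
    have b6 := mul_le_mul_of_nonneg_left b5 (show 0 ≤ N * a ^ 2 by positivity)
    rw [b4] at b3
    nlinarith
  have hErr : ∀ e, Ex (sym ρ) (fun w => |K (fun f => Rc (fun t o => y t o f) w) e| ^ p) ≤
      2 ^ p * (CR * (∑ t, ∑ o, ρ o * |K (y t o) e| ^ p + X) + N ^ p * (CC * Y)) := by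
    intro e
    have b1 : Ex (sym ρ) (fun w => |K (fun f => Rc (fun t o => y t o f) w) e| ^ p) ≤
        Ex (sym ρ) (fun w => 2 ^ p * |Rs (fun t o => K (y t o) e) univ w| ^ p +
          2 ^ p * |K (fun f => Rc (fun t o => y t o f) w -
            Rs (fun t o => y t o f) univ w) e| ^ p) := by
      refine Ex_mono s0 fun w => ?_
      rw [hsplit]
      have := add_pow_le (τ := 1) hp0.le one_pos (Rs (fun t o => K (y t o) e) univ w)
        (K (fun f => Rc (fun t o => y t o f) w - Rs (fun t o => y t o f) univ w) e)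
      norm_num at this
      exact this
    rw [Ex_add, Ex_mul, Ex_mul, ← mul_add] at b1
    exact b1.trans (mul_le_mul_of_nonneg_left (add_le_add (hE1 e) (hE2 e)) (by positivity))
  have hpt : ∀ e, |Ex (sym ρ) (fun w => |Rc (fun t o => y t o e) w +
        K (fun f => Rc (fun t o => y t o f) w) e| ^ p) - ∑ t, ∑ o, ρ o * |y t o e| ^ p| ≤
      (A - 1) * c + CC * Y + B * (2 ^ p * (CR * (∑ t, ∑ o, ρ o * |K (y t o) e| ^ p + X) +
        N ^ p * (CC * Y))) := by
    intro e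
    set μ := Ex (sym ρ) (fun w => |Rc (fun t o => y t o e) w +
        K (fun f => Rc (fun t o => y t o f) w) e| ^ p) with hμ
    set m := ∑ t, ∑ o, ρ o * |y t o e| ^ p with hm
    set ν := Ex (sym ρ) (fun w => |Rc (fun t o => y t o e) w| ^ p) with hν
    set R := Ex (sym ρ) (fun w => |K (fun f => Rc (fun t o => y t o f) w) e| ^ p) with hR
    have hm0 : 0 ≤ m := Finset.sum_nonneg fun t _ => Finset.sum_nonneg fun o _ =>
      mul_nonneg (h0 o) (by positivity)
    have b1 : ν ≤ m := by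
      rw [hm, ← hmom]
      exact Ex_mono s0 fun w => (Rc_pow hp ha.le (fun t o => hy t o e) w).1
    have b2 : m ≤ ν + CC * Y := by
      have := Ex_mono s0 fun w => (Rc_pow hp ha.le (fun t o => hy t o e) w).2
      rw [Ex_add, hmom] at this
      linarith [hcl e]
    have b3 : μ ≤ A * ν + B * R := by
      have := Ex_mono s0 fun w => add_pow_le hp0.le hτ (Rc (fun t o => y t o e) w)
        (K (fun f => Rc (fun t o => y t o f) w) e)
      rwa [Ex_add, Ex_mul, Ex_mul] at this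
    have b4 : ν ≤ A * μ + B * R := by
      have := Ex_mono s0 fun w => add_pow_le hp0.le hτ (Rc (fun t o => y t o e) w +
        K (fun f => Rc (fun t o => y t o f) w) e) (-K (fun f => Rc (fun t o => y t o f) w) e)
      simp only [add_neg_cancel_right, abs_neg] at this
      rwa [Ex_add, Ex_mul, Ex_mul] at this
    have hR0 : 0 ≤ R := by
      rw [← Ex_const (T := T) s1 0]
      exact Ex_mono s0 fun w => by positivity
    exact arith_pt hA1 hB1 hm0 hR0 (by positivity) b1 b2 b3 b4 (hErr e) (hc e)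
  refine (Finset.sum_le_sum fun e _ => mul_le_mul_of_nonneg_left (hpt e) (hK.α0 e)).trans ?_
  have e3 : ∑ e, α e * ((A - 1) * c + CC * Y + B * (2 ^ p * (CR *
      (∑ t, ∑ o, ρ o * |K (y t o) e| ^ p + X) + N ^ p * (CC * Y)))) =
      (∑ e, α e) * ((A - 1) * c + CC * Y + B * (2 ^ p * (CR * X + N ^ p * (CC * Y)))) +
        B * 2 ^ p * CR * ∑ e, α e * ∑ t, ∑ o, ρ o * |K (y t o) e| ^ p := by
    rw [Finset.sum_mul, Finset.mul_sum, ← Finset.sum_add_distrib]
    exact Finset.sum_congr rfl fun e _ => by ring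
  have e4 : ∑ e, α e * ∑ t, ∑ o, ρ o * |K (y t o) e| ^ p =
      ∑ t, ∑ o, ρ o * ∑ e, α e * |K (y t o) e| ^ p := by
    simp only [Finset.mul_sum]
    rw [Finset.sum_comm]
    refine Finset.sum_congr rfl fun t _ => ?_
    rw [Finset.sum_comm]
    exact Finset.sum_congr rfl fun o _ => Finset.sum_congr rfl fun e _ => by ring
  rw [e3, e4, hα, one_mul]
  have hD0 : 0 ≤ D := le_trans (Finset.sum_nonneg fun t _ => Finset.sum_nonneg fun o _ =>
    mul_nonneg (h0 o) (Finset.sum_nonneg fun e _ => mul_nonneg (hK.α0 e) (by positivity))) hD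
  have e5 : N ^ p * a ^ p * q ^ 2 = N ^ p * Y := by rw [hY]; ring
  rw [e5]
  exact arith_fin hB1 h2p hCR hCC hX0 hY0 hD0 hD hNp

end Crest.Agent.R232
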