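import Crest.Agent.R232.Oracle

/-! Row 232: multiplicative weights and the finite embedding theorem. -/

open Finset

namespace Crest.Agent.R232

theorem mwu {E G : Type} [Fintype E] [Nonempty E] (x : G → E → ℝ) {B ε : ℝ} (hB : 1 ≤ B)
    (hε : 0 < ε) (hε1 : ε ≤ 1)
    (hx : ∀ α : E → ℝ, (∀ e, 0 < α e) → ∑ e, α e = 1 → ∀ b : E → ℝ, (∀ e, |b e| ≤ α e) →
      ∃ g, (∀ e, |x g e| ≤ B) ∧ ∑ e, b e * x g e ≤ ε)
    (R : ℕ) (hR : Real.log (2 * Fintype.card E) * B ^ 2 / ε ^ 2 ≤ R) :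
    ∃ g : Fin R → G, ∀ e, |∑ r, x (g r) e| ≤ 3 * ε * R := by
  set η := ε / B ^ 2 with hη
  have hB0 : 0 < B := by linarith
  have hη0 : 0 < η := by positivity
  have key : ∀ k : ℕ, ∃ g : Fin k → G,
      ∑ e, (Real.exp (η * ∑ r, x (g r) e) + Real.exp (-(η * ∑ r, x (g r) e))) ≤
        2 * Fintype.card E * Real.exp (2 * η * ε * k) := by
    intro k
    induction k with
    | zero =>
      refine ⟨Fin.elim0, ?_⟩
      simp
      linarith
    | succ k ih =>
      obtain ⟨g, hg⟩ := ih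
      set u : E → ℝ := fun e => Real.exp (η * ∑ r, x (g r) e) with hu
      set v : E → ℝ := fun e => Real.exp (-(η * ∑ r, x (g r) e)) with hv
      have hu0 : ∀ e, 0 < u e := fun e => Real.exp_pos _
      have hv0 : ∀ e, 0 < v e := fun e => Real.exp_pos _
      set Φ := ∑ e, (u e + v e) with hΦ
      have hΦ0 : 0 < Φ := Finset.sum_pos (fun e _ => add_pos (hu0 e) (hv0 e)) Finset.univ_nonempty
      obtain ⟨g0, h1, h2⟩ := hx (fun e => (u e + v e) / Φ)
        (fun e => div_pos (add_pos (hu0 e) (hv0 e)) hΦ0)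
        (by rw [← Finset.sum_div, div_self hΦ0.ne']) (fun e => (u e - v e) / Φ)
        (fun e => by
          rw [abs_div, abs_of_pos hΦ0]
          refine div_le_div_of_nonneg_right ?_ hΦ0.le
          rw [abs_le]
          constructor <;> linarith [hu0 e, hv0 e])
      refine ⟨Fin.cons g0 g, ?_⟩
      simp only [Fin.sum_univ_succ, Fin.cons_zero, Fin.cons_succ]
      have hexp : ∀ y : ℝ, |y| ≤ B → Real.exp (η * y) ≤ 1 + η * y + η * ε := by
        intro y hy
        have a1 : |η * y| ≤ ε / B := by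
          rw [abs_mul, abs_of_pos hη0, hη]
          calc ε / B ^ 2 * |y| ≤ ε / B ^ 2 * B := mul_le_mul_of_nonneg_left hy (by positivity)
            _ = ε / B := by field_simp
        have a2 : ε / B ≤ 1 := by rw [div_le_one hB0]; linarith
        have a3 := (le_abs_self _).trans (Real.abs_exp_sub_one_sub_id_le (a1.trans a2))
        have a4 : (η * y) ^ 2 ≤ (ε / B) ^ 2 := by
          rw [← sq_abs]
          exact pow_le_pow_left₀ (abs_nonneg _) a1 2
        have a5 : (ε / B) ^ 2 = η * ε := by rw [hη]; field_simp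
        linarith
      have b1 : ∑ e, (Real.exp (η * (x g0 e + ∑ r, x (g r) e)) +
          Real.exp (-(η * (x g0 e + ∑ r, x (g r) e)))) ≤
          ∑ e, ((1 + η * ε) * (u e + v e) + η * Φ * ((u e - v e) / Φ * x g0 e)) := by
        refine Finset.sum_le_sum fun e _ => ?_
        have e1 : Real.exp (η * (x g0 e + ∑ r, x (g r) e)) = Real.exp (η * x g0 e) * u e := by
          rw [hu, ← Real.exp_add]
          congr 1
          ring
        have e2 : Real.exp (-(η * (x g0 e + ∑ r, x (g r) e))) = Real.exp (η * -x g0 e) * v e := by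
          rw [hv, ← Real.exp_add]
          congr 1
          ring
        have e3 : η * Φ * ((u e - v e) / Φ * x g0 e) = η * ((u e - v e) * x g0 e) := by
          field_simp
        rw [e1, e2, e3]
        have c1 := mul_le_mul_of_nonneg_right (hexp _ (h1 e)) (hu0 e).le
        have c2 := mul_le_mul_of_nonneg_right (hexp (-x g0 e) (by rw [abs_neg]; exact h1 e))
          (hv0 e).le
        linarith
      rw [Finset.sum_add_distrib (f := fun e => (1 + η * ε) * (u e + v e)), ← Finset.mul_sum,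
        ← Finset.mul_sum, ← hΦ] at b1
      have b2 := mul_le_mul_of_nonneg_left h2 (show 0 ≤ η * Φ by positivity)
      have b3 : 1 + 2 * η * ε ≤ Real.exp (2 * η * ε) := by
        linarith [Real.add_one_le_exp (2 * η * ε)]
      have b4 : Real.exp (2 * η * ε * ((k + 1 : ℕ) : ℝ)) =
          Real.exp (2 * η * ε) * Real.exp (2 * η * ε * k) := by
        rw [← Real.exp_add]
        congr 1
        push_cast
        ring
      have b5 := mul_le_mul b3 hg hΦ0.le (Real.exp_pos _).le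
      rw [b4]
      linarith
  obtain ⟨g, hg⟩ := key R
  refine ⟨g, fun e => ?_⟩
  have hn : (0 : ℝ) < 2 * Fintype.card E := by
    have : 0 < Fintype.card E := Fintype.card_pos
    positivity
  have c1 : Real.exp (η * ∑ r, x (g r) e) + Real.exp (-(η * ∑ r, x (g r) e)) ≤
      2 * Fintype.card E * Real.exp (2 * η * ε * R) :=
    le_trans (Finset.single_le_sum (f := fun e => Real.exp (η * ∑ r, x (g r) e) +
      Real.exp (-(η * ∑ r, x (g r) e))) (fun e _ => by positivity) (Finset.mem_univ e)) hg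
  have c2 : Real.exp (η * |∑ r, x (g r) e|) ≤
      Real.exp (Real.log (2 * Fintype.card E) + 2 * η * ε * R) := by
    rw [Real.exp_add, Real.exp_log hn]
    refine le_trans ?_ c1
    rcases abs_cases (∑ r, x (g r) e) with ⟨h, -⟩ | ⟨h, -⟩
    · rw [h]
      linarith [Real.exp_pos (-(η * ∑ r, x (g r) e))]
    · rw [h, mul_neg]
      linarith [Real.exp_pos (η * ∑ r, x (g r) e)]
  rw [Real.exp_le_exp] at c2
  have c3 : Real.log (2 * Fintype.card E) ≤ η * ε * R := by
    rw [div_le_iff₀ (by positivity)] at hR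
    have : η * ε * R = R * ε ^ 2 / B ^ 2 := by rw [hη]; field_simp
    rw [this, le_div_iff₀ (by positivity)]
    exact hR
  have c4 : η * |∑ r, x (g r) e| ≤ η * (3 * ε * R) := by linarith
  exact le_of_mul_le_mul_left c4 hη0

theorem le_exp_const {K G : ℝ} (hK : 0 ≤ K) (hG : 1 / 2 ≤ G) : K ≤ Real.exp (2 * K * G) := by
  have := Real.add_one_le_exp (2 * K * G)
  nlinarith

theorem add_one_le_exp' {F c G : ℝ} (hc : 0 ≤ c) (hG : 1 / 2 ≤ G) (h : F ≤ Real.exp (c * G)) :
    F + 1 ≤ Real.exp ((c + 2) * G) := by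
  have h1 : 1 ≤ Real.exp (c * G) := Real.one_le_exp (by nlinarith)
  have h2 : 2 ≤ Real.exp (2 * G) := by linarith [Real.add_one_le_exp (2 * G)]
  rw [add_mul, Real.exp_add]
  nlinarith

theorem mul_le_exp {F F' c c' G : ℝ} (hF' : 0 ≤ F') (h : F ≤ Real.exp (c * G))
    (h' : F' ≤ Real.exp (c' * G)) : F * F' ≤ Real.exp ((c + c') * G) := by
  rw [add_mul, Real.exp_add]
  exact mul_le_mul h h' hF' (Real.exp_pos _).le

theorem rpow_le_exp {F c G q : ℝ} (hF : 0 ≤ F) (hq : 0 ≤ q) (h : F ≤ Real.exp (c * G)) :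
    F ^ q ≤ Real.exp ((c * q) * G) := by
  have := Real.rpow_le_rpow hF h hq
  rw [← Real.exp_mul] at this
  convert this using 2
  ring

theorem gam_pos {p : ℝ} (h1 : 1 < p) (h2 : p ≠ 2) : 0 < gam p ∧ gam p ≤ 1 := by
  unfold gam
  split_ifs with h
  · constructor <;> linarith
  · have h3 : 2 < p := lt_of_le_of_ne (not_lt.mp h) h2.symm
    have h4 : 2 / p < 1 := by rw [div_lt_one (by linarith)]; exact h3
    have h5 : 0 < 2 / p := by positivity
    constructor <;> linarith

theorem dim_bound {γ c0 κ0 q ε : ℝ} (hγ : 0 < γ) (hγ1 : γ ≤ 1) (hc0 : 0 < c0) (hκ0 : 0 < κ0)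
    (hq : 0 ≤ q) (hε : 0 < ε) : ∃ C : ℝ, ∀ n : ℕ, 2 ≤ n → ∀ (N Λ : ℝ) (H : ℕ),
      N = 65 * Real.log (2 * n) + 1 → H = ⌈c0 * N ^ γ⌉₊ → Λ = N * (4 * H * 16 ^ H) →
      ((⌈Real.log (2 * (n * n : ℕ)) * (Λ ^ q / κ0 + 1) ^ 2 / ε ^ 2⌉₊ : ℕ) : ℝ) ≤
        Real.exp (C * Real.log n ^ γ) := by
  set c1 := 132 * c0 + 2 with hc1
  set c2 := (2 * 132 + 1 / γ) + 20 * c1 with hc2
  set c3 := (c2 * q + 2 * (1 / κ0)) + 2 with hc3
  refine ⟨((2 * 3 + 1 / γ) + (c3 + c3) + 2 * (1 / ε ^ 2)) + 2, fun n hn N Λ H hN hH hΛ => ?_⟩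
  have hn2 : (2 : ℝ) ≤ n := by exact_mod_cast hn
  set x := Real.log n with hx
  have hl2 := Real.log_two_gt_d9
  have hx2 : Real.log 2 ≤ x := Real.log_le_log (by norm_num) hn2
  have hx0 : 0 < x := by linarith
  set G := x ^ γ with hG
  have hG1 : 1 / 2 ≤ G := by
    rcases le_total 1 x with h | h
    · have := Real.one_le_rpow h hγ.le
      linarith
    · have := Real.rpow_le_rpow_of_exponent_ge hx0 h hγ1
      rw [Real.rpow_one] at this
      linarith
  have hxG : x ≤ Real.exp (1 / γ * G) := by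
    have := Real.log_le_rpow_div hx0.le hγ
    rw [← Real.exp_log hx0, Real.exp_le_exp, one_div_mul_eq_div]
    exact this
  have hN1 : N ≤ 132 * x := by
    rw [hN, Real.log_mul (by norm_num) (by linarith)]
    linarith
  have hN0 : 1 ≤ N := by
    rw [hN, Real.log_mul (by norm_num) (by linarith)]
    linarith
  have hNe : N ≤ Real.exp ((2 * 132 + 1 / γ) * G) :=
    hN1.trans (mul_le_exp hx0.le (le_exp_const (by norm_num) hG1) hxG)
  have hHc : (H : ℝ) ≤ c1 * G := by
    have a1 : (H : ℝ) < c0 * N ^ γ + 1 := by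
      rw [hH]
      exact Nat.ceil_lt_add_one (by positivity)
    have a2 : N ^ γ ≤ 132 * G := by
      have a3 := Real.rpow_le_rpow (by linarith) hN1 hγ.le
      rw [Real.mul_rpow (by norm_num) hx0.le] at a3
      have a4 := Real.rpow_le_rpow_of_exponent_le (show (1 : ℝ) ≤ 132 by norm_num) hγ1
      rw [Real.rpow_one] at a4
      have := mul_le_mul_of_nonneg_right a4 (show 0 ≤ G by linarith)
      linarith
    have := mul_le_mul_of_nonneg_left a2 hc0.le
    rw [hc1]
    linarith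
  have hae : (4 * H * 16 ^ H : ℝ) ≤ Real.exp ((20 * c1) * G) := by
    have a1 : (4 * H : ℝ) ≤ Real.exp (4 * H) := by linarith [Real.add_one_le_exp (4 * H : ℝ)]
    have a2 : (16 : ℝ) ^ H ≤ Real.exp (16 * H) := by
      rw [mul_comm, Real.exp_nat_mul]
      exact pow_le_pow_left₀ (by norm_num) (by linarith [Real.add_one_le_exp (16 : ℝ)]) H
    have a3 := mul_le_mul a1 a2 (by positivity) (Real.exp_pos _).le
    rw [← Real.exp_add] at a3
    exact a3.trans (Real.exp_le_exp.mpr (by linarith))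
  have hΛe : Λ ≤ Real.exp (c2 * G) := by
    rw [hΛ]
    exact mul_le_exp (by positivity) hNe hae
  have hΛ0 : 0 ≤ Λ := by rw [hΛ]; positivity
  have hc2' : 0 ≤ c2 := by positivity
  have hBe : Λ ^ q / κ0 + 1 ≤ Real.exp (c3 * G) := by
    refine add_one_le_exp' (by positivity) hG1 ?_
    rw [div_eq_mul_one_div]
    exact mul_le_exp (by positivity) (rpow_le_exp hΛ0 hq hΛe) (le_exp_const (by positivity) hG1)
  have hLe : Real.log (2 * (n * n : ℕ)) ≤ Real.exp ((2 * 3 + 1 / γ) * G) := by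
    refine le_trans ?_ (mul_le_exp hx0.le (le_exp_const (K := 3) (by norm_num) hG1) hxG)
    push_cast
    rw [Real.log_mul (by norm_num) (by positivity), Real.log_mul (by linarith) (by linarith)]
    linarith
  have hL0 : 0 ≤ Real.log (2 * (n * n : ℕ)) := by
    refine Real.log_nonneg ?_
    push_cast
    nlinarith
  refine (Nat.ceil_lt_add_one (by positivity)).le.trans (add_one_le_exp' (by positivity) hG1 ?_)
  rw [div_eq_mul_one_div, sq (Λ ^ q / κ0 + 1)]
  exact mul_le_exp (by positivity) (mul_le_exp (by positivity) hLe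
    (mul_le_exp (by positivity) hBe hBe)) (le_exp_const (by positivity) hG1)

theorem fin_embed {p : ℝ} (h1 : 1 < p) (h2 : p ≠ 2) {ε : ℝ} (hε : 0 < ε) (hε1 : ε ≤ 1) :
    ∃ C : ℝ, ∀ n : ℕ, 2 ≤ n → ∀ {T : Type} [Fintype T] (f : T → Fin n → ℝ),
      (∀ i j, i ≠ j → 0 < ∑ t, |f t i - f t j| ^ p) →
      ∃ R : ℕ, (R : ℝ) ≤ Real.exp (C * Real.log n ^ gam p) ∧
        ∃ (y : Fin R → Fin n → ℝ) (c : ℝ), 0 < c ∧ ∀ i j,
          (1 - 3 * ε) * c * ∑ t, |f t i - f t j| ^ p ≤ ∑ r, |y r i - y r j| ^ p ∧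
          ∑ r, |y r i - y r j| ^ p ≤ (1 + 3 * ε) * c * ∑ t, |f t i - f t j| ^ p := by
  have hp0 : 0 < p := by linarith
  obtain ⟨c0, κ0, θ, hc0, k0, k1, k2, horc⟩ := oracle h1 h2 hε
  obtain ⟨g1, g2⟩ := gam_pos h1 h2
  obtain ⟨C, hC⟩ := dim_bound g1 g2 hc0 k0 (show 0 ≤ p + θ by linarith) hε
  refine ⟨C, fun n hn {T} _ f hf => ?_⟩
  classical
  have hn2 : (2 : ℝ) ≤ n := by exact_mod_cast hn
  haveI : Nonempty (Fin n) := ⟨⟨0, by omega⟩⟩
  let D : Fin n × Fin n → ℝ := fun e => ∑ t, |f t e.1 - f t e.2| ^ p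
  let d : Fin n × Fin n → ℝ := fun e => if e.1 = e.2 then 1 else D e ^ (1 / p)
  have hd : ∀ e, 0 < d e := by
    intro e
    simp only [d]
    split_ifs with h
    · norm_num
    · exact Real.rpow_pos_of_pos (hf _ _ h) _
  have hdp : ∀ e : Fin n × Fin n, e.1 ≠ e.2 → d e ^ p = D e := by
    intro e h
    simp only [d, if_neg h]
    rw [← Real.rpow_mul (hf _ _ h).le, one_div, inv_mul_cancel₀ hp0.ne', Real.rpow_one]
  have hgr : ∀ (u : Fin n → ℝ) e, |grad d u e| ^ p = |u e.1 - u e.2| ^ p / d e ^ p := by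
    intro u e
    rw [grad, abs_div, abs_of_pos (hd e), Real.div_rpow (abs_nonneg _) (hd e).le]
  have hτ : ∀ e : Fin n × Fin n, e.1 ≠ e.2 → ∑ t, |grad d (f t) e| ^ p = 1 := by
    intro e h
    simp only [hgr]
    rw [← Finset.sum_div, hdp e h]
    exact div_self (hf _ _ h).ne'
  have hτ1 : ∀ e, ∑ t, |grad d (f t) e| ^ p ≤ 1 := by
    intro e
    by_cases h : e.1 = e.2
    · simp [grad, h, Real.zero_rpow hp0.ne']
    · exact (hτ e h).le
  have hL : 0 < Real.log (2 * Fintype.card (Fin n)) := by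
    rw [Fintype.card_fin]
    exact Real.log_pos (by linarith)
  set N := 65 * Real.log (2 * Fintype.card (Fin n)) + 1 with hN
  set H := ⌈c0 * N ^ gam p⌉₊ with hH
  have hN1 : 1 ≤ N := by linarith
  have hH1 : 1 ≤ H := Nat.ceil_pos.mpr (by positivity)
  set Λ := N * (4 * H * 16 ^ H) with hΛ
  have hΛ0 : 0 < Λ := by
    have : (1 : ℝ) ≤ H := by exact_mod_cast hH1
    positivity
  obtain ⟨c, hc, hor⟩ := horc d f hd hτ1 hL N Λ H hN hH1 (Nat.le_ceil _) hΛ
  have hc0' : 0 < c := lt_of_lt_of_le (by positivity) hc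
  set B := Λ ^ (p + θ) / κ0 + 1 with hB
  have hB1 : 1 ≤ B := le_add_of_nonneg_left (by positivity)
  set R := ⌈Real.log (2 * (n * n : ℕ)) * B ^ 2 / ε ^ 2⌉₊ with hR
  have hR0 : (0 : ℝ) < R := by
    have : 0 < R := by
      refine Nat.ceil_pos.mpr ?_
      have : 0 < Real.log (2 * (n * n : ℕ)) := by
        refine Real.log_pos ?_
        push_cast
        nlinarith
      positivity
    exact_mod_cast this
  obtain ⟨g, hg⟩ := mwu (G := Fin n → ℝ)
    (fun u e => |grad d u e| ^ p / c - ∑ t, |grad d (f t) e| ^ p) hB1 hε hε1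
    (fun α hα hα1 b hb => by
      obtain ⟨u, hu1, hu2⟩ := hor α hα hα1 b hb
      refine ⟨u, fun e => ?_, hu2⟩
      have a1 : |grad d u e| ^ p / c ≤ Λ ^ (p + θ) / κ0 := by
        rw [div_le_div_iff₀ hc0' k0]
        have a2 := Real.rpow_le_rpow (abs_nonneg _) (hu1 e) hp0.le
        have a3 : Λ ^ (p + θ) * (κ0 * Λ ^ (-θ)) = Λ ^ p * κ0 := by
          rw [mul_left_comm, ← Real.rpow_add hΛ0, mul_comm]
          congr 2
          ring
        have a4 := mul_le_mul_of_nonneg_left hc (show 0 ≤ Λ ^ (p + θ) by positivity)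
        have a5 := mul_le_mul_of_nonneg_right a2 k0.le
        linarith
      have a6 : 0 ≤ |grad d u e| ^ p / c := by positivity
      have a7 : 0 ≤ ∑ t, |grad d (f t) e| ^ p := Finset.sum_nonneg fun t _ => by positivity
      have a8 := hτ1 e
      have a9 : 0 ≤ Λ ^ (p + θ) / κ0 := by positivity
      rw [abs_le]
      constructor <;> linarith) R
    (by rw [Fintype.card_prod, Fintype.card_fin]; exact Nat.le_ceil _)
  refine ⟨R, hC n hn N Λ H (by rw [hN, Fintype.card_fin]) hH hΛ, g, c * R, by positivity,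
    fun i j => ?_⟩
  by_cases h : i = j
  · subst h
    simp [Real.zero_rpow hp0.ne']
  · have b1 := hg (i, j)
    rw [hτ (i, j) h] at b1
    simp only [hgr] at b1
    rw [hdp (i, j) h, Finset.sum_sub_distrib, ← Finset.sum_div, ← Finset.sum_div] at b1
    simp only [Finset.sum_const, Finset.card_univ, Fintype.card_fin, nsmul_eq_mul, mul_one] at b1
    have hD : 0 < D (i, j) := hf i j h
    obtain ⟨b2, b3⟩ := abs_le.mp b1
    have b4 : (∑ r, |g r i - g r j| ^ p) / D (i, j) / c * (c * D (i, j)) =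
        ∑ r, |g r i - g r j| ^ p := by field_simp
    have b5 := mul_le_mul_of_nonneg_right b2 (show 0 ≤ c * D (i, j) by positivity)
    have b6 := mul_le_mul_of_nonneg_right b3 (show 0 ≤ c * D (i, j) by positivity)
    rw [sub_mul, b4] at b5 b6
    change (1 - 3 * ε) * (c * R) * D (i, j) ≤ _ ∧ _ ≤ (1 + 3 * ε) * (c * R) * D (i, j)
    constructor <;> linarith

end Crest.Agent.R232
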