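import Mathlib

/-! Row 232: scalar inequalities for real powers. -/

open Finset

namespace Crest.Agent.R232

theorem wpow {ι : Type} (s : Finset ι) {p T : ℝ} (hp : 1 ≤ p) (w x : ι → ℝ) (hw : ∀ i, 0 ≤ w i)
    (hx : ∀ i, 0 ≤ x i) (hT : ∑ i ∈ s, w i ≤ T) :
    (∑ i ∈ s, w i * x i) ^ p ≤ T ^ (p - 1) * ∑ i ∈ s, w i * x i ^ p := by
  have h1 := Real.inner_le_weight_mul_Lp_of_nonneg s hp w x hw hx
  have hw0 : 0 ≤ ∑ i ∈ s, w i := Finset.sum_nonneg fun i _ => hw i
  have hS : 0 ≤ ∑ i ∈ s, w i * x i ^ p :=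
    Finset.sum_nonneg fun i _ => mul_nonneg (hw i) (Real.rpow_nonneg (hx i) _)
  have h0 : 0 ≤ ∑ i ∈ s, w i * x i := Finset.sum_nonneg fun i _ => mul_nonneg (hw i) (hx i)
  have hp0 : 0 < p := by linarith
  have h2 := Real.rpow_le_rpow h0 h1 hp0.le
  rw [Real.mul_rpow (Real.rpow_nonneg hw0 _) (Real.rpow_nonneg hS _), ← Real.rpow_mul hw0,
    ← Real.rpow_mul hS, inv_mul_cancel₀ hp0.ne', Real.rpow_one] at h2
  have e : (1 - p⁻¹) * p = p - 1 := by field_simp
  rw [e] at h2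
  exact h2.trans (mul_le_mul_of_nonneg_right (Real.rpow_le_rpow hw0 hT (by linarith)) hS)

theorem geo_tail {r : ℝ} (h0 : 0 ≤ r) (h1 : r < 1) (n k : ℕ) :
    ∑ i ∈ range n, (if k ≤ i then r ^ i else 0) ≤ r ^ k / (1 - r) := by
  rw [← Finset.sum_filter]
  have : (range n).filter (fun i => k ≤ i) = Ico k n := by
    ext i
    simp only [Finset.mem_filter, Finset.mem_range, Finset.mem_Ico]
    tauto
  rw [this]
  exact geom_sum_Ico_le_of_lt_one h0 h1

theorem geo_head {r : ℝ} (h0 : 0 ≤ r) (h1 : r < 1) (n k : ℕ) :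
    ∑ i ∈ range n, (if i ≤ k then r ^ (k - i) else 0) ≤ 1 / (1 - r) := by
  rw [← Finset.sum_filter]
  have h2 : (range n).filter (fun i => i ≤ k) ⊆ range (k + 1) := by
    intro i hi
    simp only [Finset.mem_filter, Finset.mem_range] at hi ⊢
    omega
  refine (Finset.sum_le_sum_of_subset_of_nonneg h2 fun i _ _ => pow_nonneg h0 _).trans ?_
  have h3 := Finset.sum_range_reflect (fun i => r ^ i) (k + 1)
  simp only [Nat.add_sub_cancel] at h3
  rw [h3]
  have h4 := geom_sum_Ico_le_of_lt_one (m := 0) (n := k + 1) h0 h1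
  rwa [← Finset.range_eq_Ico, pow_zero] at h4

theorem half_rpow_lt_one {q : ℝ} (hq : 0 < q) : (1 / 2 : ℝ) ^ q < 1 :=
  Real.rpow_lt_one (by norm_num) (by norm_num) hq

theorem young_lt {p θ x : ℝ} (hp1 : 1 ≤ p) (hp2 : p ≤ 2) (hθ : 0 < θ) (hx : 0 ≤ x) :
    x ^ p ≤ θ ^ (p - 1) * x + θ ^ (p - 2) * x ^ 2 := by
  rcases hx.eq_or_lt with h | h
  · subst h
    rw [Real.zero_rpow (by linarith)]
    simp
  · have h1 : 0 ≤ θ ^ (p - 1) * x := by positivity
    have h2 : 0 ≤ θ ^ (p - 2) * x ^ 2 := by positivity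
    rcases le_total x θ with h3 | h3
    · have e : x ^ p = x ^ (p - 1) * x := by
        rw [← Real.rpow_add_one h.ne']
        congr 1
        ring
      have := Real.rpow_le_rpow hx h3 (show 0 ≤ p - 1 by linarith)
      rw [e]
      nlinarith
    · have e : x ^ p = x ^ (p - 2) * x ^ 2 := by
        rw [← Real.rpow_natCast, ← Real.rpow_add h]
        congr 1
        push_cast
        ring
      have := Real.rpow_le_rpow_of_nonpos hθ h3 (show p - 2 ≤ 0 by linarith)
      rw [e]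
      nlinarith [sq_nonneg x]

theorem sum_pow_le {p : ℝ} (hp : 2 < p) : ∃ C : ℝ, 0 < C ∧ ∀ (n : ℕ) (A : ℝ) (b : ℕ → ℝ), 0 < A →
    (∀ i, 0 ≤ b i) → (∀ i, b i ≤ A * (1 / 2) ^ i) →
    (∑ i ∈ range n, b i) ^ p ≤ C * ∑ i ∈ range n, (A * (1 / 2) ^ i) ^ (p - 2) * b i ^ 2 := by
  set r : ℝ := (1 / 2) ^ ((p - 2) / 2) with hr
  have hr0 : 0 < r := by positivity
  have hr1 : r < 1 := half_rpow_lt_one (by linarith)
  have hC : 0 < 2 + 1 / (1 - r) := by
    have : 0 < 1 - r := by linarith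
    positivity
  refine ⟨(2 + 1 / (1 - r)) ^ p, by positivity, fun n A b hA hb0 hb => ?_⟩
  set Q := ∑ i ∈ range n, (A * (1 / 2) ^ i) ^ (p - 2) * b i ^ 2 with hQ
  have hterm : ∀ i ∈ range n, 0 ≤ (A * (1 / 2) ^ i) ^ (p - 2) * b i ^ 2 := fun i _ => by positivity
  have hQ0 : 0 ≤ Q := Finset.sum_nonneg hterm
  have hle : ∀ i ∈ range n, (A * (1 / 2) ^ i) ^ (p - 2) * b i ^ 2 ≤ Q := fun i hi =>
    Finset.single_le_sum hterm hi
  rcases hQ0.eq_or_lt with h | h
  · have : ∑ i ∈ range n, b i = 0 := by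
      refine Finset.sum_eq_zero fun i hi => ?_
      have h1 := hle i hi
      have h2 : 0 < (A * (1 / 2) ^ i) ^ (p - 2) := by positivity
      have h3 : b i ^ 2 ≤ 0 := by
        by_contra h4
        push Not at h4
        have := mul_pos h2 h4
        linarith
      exact pow_eq_zero_iff (two_ne_zero) |>.mp (le_antisymm h3 (sq_nonneg _))
    rw [this, Real.zero_rpow (by linarith), ← h]
    simp
  · set σ := Q ^ (1 / p) with hσ
    have hσ0 : 0 < σ := by positivity
    have hσp : σ ^ p = Q := by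
      rw [hσ, ← Real.rpow_mul h.le, one_div, inv_mul_cancel₀ (by linarith), Real.rpow_one]
    have hex : ∃ k : ℕ, A * (1 / 2) ^ k ≤ σ := by
      obtain ⟨k, hk⟩ := exists_pow_lt_of_lt_one (show 0 < σ / A by positivity)
        (show (1 / 2 : ℝ) < 1 by norm_num)
      refine ⟨k, ?_⟩
      rw [lt_div_iff₀ hA] at hk
      linarith
    classical
    set k := Nat.find hex with hk
    have hk1 : A * (1 / 2) ^ k ≤ σ := Nat.find_spec hex
    have hk2 : ∀ i, i < k → σ < A * (1 / 2) ^ i := fun i hi =>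
      not_le.mp (Nat.find_min hex hi)
    have hbi : ∀ i ∈ range n, b i ≤ A * (if k ≤ i then (1 / 2) ^ i else 0) +
        σ * (if i ≤ k - 1 then r ^ (k - 1 - i) else 0) := by
      intro i hi
      by_cases hik : k ≤ i
      · rw [if_pos hik]
        have : 0 ≤ σ * (if i ≤ k - 1 then r ^ (k - 1 - i) else 0) := by
          split_ifs <;> positivity
        linarith [hb i]
      · rw [if_neg hik, if_pos (by omega), mul_zero, zero_add]
        have h1 := hk2 (k - 1) (by omega)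
        have h2 : (1 / 2 : ℝ) ^ (k - 1) = (1 / 2) ^ i * (1 / 2) ^ (k - 1 - i) := by
          rw [← pow_add]
          congr 1
          omega
        have h3 : σ ^ (p - 2) ≤ (A * (1 / 2) ^ i) ^ (p - 2) * (r ^ (k - 1 - i)) ^ 2 := by
          have h4 : (r ^ (k - 1 - i)) ^ 2 = ((1 / 2 : ℝ) ^ (k - 1 - i)) ^ (p - 2) := by
            rw [← pow_mul, mul_comm, pow_mul, ← Real.rpow_pow_comm (by norm_num)]
            congr 1
            rw [hr, ← Real.rpow_natCast, ← Real.rpow_mul (by norm_num)]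
            congr 1
            push_cast
            ring
          rw [h4, ← Real.mul_rpow (by positivity) (by positivity), mul_assoc, ← h2]
          exact Real.rpow_le_rpow hσ0.le h1.le (by linarith)
        have h5 : σ ^ p = σ ^ (p - 2) * σ ^ 2 := by
          rw [← Real.rpow_natCast, ← Real.rpow_add hσ0]
          congr 1
          push_cast
          ring
        have h6 := hle i hi
        rw [← hσp, h5] at h6
        have h7 : 0 < (A * (1 / 2) ^ i) ^ (p - 2) := by positivity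
        have h8 : (A * (1 / 2) ^ i) ^ (p - 2) * b i ^ 2 ≤
            (A * (1 / 2) ^ i) ^ (p - 2) * (σ * r ^ (k - 1 - i)) ^ 2 := by
          have := mul_le_mul_of_nonneg_right h3 (sq_nonneg σ)
          nlinarith
        have h9 := le_of_mul_le_mul_left h8 h7
        exact abs_le_of_sq_le_sq' h9 (by positivity) |>.2
    have hsum : ∑ i ∈ range n, b i ≤ (2 + 1 / (1 - r)) * σ := by
      refine (Finset.sum_le_sum hbi).trans ?_
      rw [Finset.sum_add_distrib, ← Finset.mul_sum, ← Finset.mul_sum]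
      have t1 := mul_le_mul_of_nonneg_left
        (geo_tail (r := 1 / 2) (by norm_num) (by norm_num) n k) hA.le
      have t2 := mul_le_mul_of_nonneg_left (geo_head hr0.le hr1 n (k - 1)) hσ0.le
      have e : A * ((1 / 2) ^ k / (1 - 1 / 2)) = 2 * (A * (1 / 2) ^ k) := by ring
      rw [e] at t1
      nlinarith
    calc (∑ i ∈ range n, b i) ^ p ≤ ((2 + 1 / (1 - r)) * σ) ^ p :=
          Real.rpow_le_rpow (Finset.sum_nonneg fun i _ => hb0 i) hsum (by linarith)
      _ = _ := by rw [Real.mul_rpow hC.le hσ0.le, hσp]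

theorem add_pow_le {p τ : ℝ} (hp : 0 ≤ p) (hτ : 0 < τ) (a b : ℝ) :
    |a + b| ^ p ≤ (1 + τ) ^ p * |a| ^ p + (1 + 1 / τ) ^ p * |b| ^ p := by
  have h0 := abs_add_le a b
  have h1 : 0 ≤ (1 + τ) ^ p * |a| ^ p := by positivity
  have h2 : 0 ≤ (1 + 1 / τ) ^ p * |b| ^ p := by positivity
  rcases le_total |b| (τ * |a|) with h | h
  · have h3 : |a + b| ^ p ≤ ((1 + τ) * |a|) ^ p :=
      Real.rpow_le_rpow (abs_nonneg _) (by linarith) hp
    rw [Real.mul_rpow (by positivity) (abs_nonneg _)] at h3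
    linarith
  · have h4 : |a| ≤ 1 / τ * |b| := by
      rw [one_div, ← div_eq_inv_mul, le_div_iff₀ hτ]
      linarith
    have h3 : |a + b| ^ p ≤ ((1 + 1 / τ) * |b|) ^ p :=
      Real.rpow_le_rpow (abs_nonneg _) (by linarith) hp
    rw [Real.mul_rpow (by positivity) (abs_nonneg _)] at h3
    linarith

theorem abs_rpow_eq (x p : ℝ) : |x| ^ p = (x ^ 2) ^ (p / 2) := by
  rw [← sq_abs, ← Real.rpow_natCast, ← Real.rpow_mul (abs_nonneg x)]
  congr 1
  push_cast
  ring

theorem two_point_le {p : ℝ} (hp0 : 0 ≤ p) (hp : p ≤ 2) (x z : ℝ) :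
    (|x + z| ^ p + |x - z| ^ p) / 2 ≤ |x| ^ p + |z| ^ p := by
  simp only [abs_rpow_eq]
  have h1 := (Real.concaveOn_rpow (p := p / 2) (by linarith) (by linarith)).2
    (Set.mem_Ici.mpr (sq_nonneg (x + z)))
    (Set.mem_Ici.mpr (sq_nonneg (x - z)))
    (show (0 : ℝ) ≤ 1 / 2 by norm_num) (show (0 : ℝ) ≤ 1 / 2 by norm_num) (by norm_num)
  simp only [smul_eq_mul] at h1
  have e : 1 / 2 * (x + z) ^ 2 + 1 / 2 * (x - z) ^ 2 = x ^ 2 + z ^ 2 := by ring
  rw [e] at h1
  have h2 := Real.rpow_add_le_add_rpow (p := p / 2) (sq_nonneg x) (sq_nonneg z) (by linarith)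
    (by linarith)
  linarith

theorem one_add_rpow_le {p u : ℝ} (hp : 0 ≤ p) (hu : -1 ≤ u) : (1 + u) ^ p ≤ Real.exp (p * u) := by
  have h1 : 1 + u ≤ Real.exp u := by linarith [Real.add_one_le_exp u]
  have h2 := Real.rpow_le_rpow (by linarith) h1 hp
  rwa [← Real.exp_mul, mul_comm] at h2

theorem two_point_ge {p : ℝ} (hp : 2 ≤ p) : ∃ C : ℝ, 0 < C ∧ ∀ x z : ℝ,
    (|x + z| ^ p + |x - z| ^ p) / 2 ≤ |x| ^ p + C * (|x| ^ (p - 2) * z ^ 2 + |z| ^ p) := by
  refine ⟨3 ^ p + p ^ 2 * Real.exp (p ^ 2), by positivity, fun x z => ?_⟩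
  have hp0 : 0 ≤ p := by linarith
  have a1 : 0 ≤ |x| ^ p := by positivity
  have a2 : 0 ≤ |x| ^ (p - 2) * z ^ 2 := by positivity
  have a3 : 0 ≤ |z| ^ p := by positivity
  have a4 : (0 : ℝ) ≤ 3 ^ p := by positivity
  have a5 : 0 ≤ p ^ 2 * Real.exp (p ^ 2) := by positivity
  rcases le_total |x| (2 * |z|) with h | h
  · have h1 : |x + z| ^ p ≤ (3 * |z|) ^ p :=
      Real.rpow_le_rpow (abs_nonneg _) (by linarith [abs_add_le x z]) hp0
    have h2 : |x - z| ^ p ≤ (3 * |z|) ^ p :=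
      Real.rpow_le_rpow (abs_nonneg _) (by linarith [abs_sub x z]) hp0
    rw [Real.mul_rpow (by norm_num) (abs_nonneg _)] at h1 h2
    nlinarith [mul_nonneg a4 a2, mul_nonneg a5 a2, mul_nonneg a5 a3]
  · rcases eq_or_ne x 0 with hx | hx
    · subst hx
      have : z = 0 := by
        simp only [abs_zero] at h
        exact abs_eq_zero.mp (le_antisymm (by linarith) (abs_nonneg z))
      subst this
      simp only [add_zero, sub_zero, abs_zero] at a1 a2 a3 ⊢
      nlinarith [mul_nonneg a4 a2, mul_nonneg a5 a2, mul_nonneg a5 a3, mul_nonneg a4 a3]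
    · have hx0 : 0 < |x| := abs_pos.mpr hx
      set u := z / x with hu
      have hz : z = x * u := by rw [hu]; field_simp
      have hu1 : |u| ≤ 1 / 2 := by
        rw [hu, abs_div, div_le_iff₀ hx0]
        linarith
      obtain ⟨hu2, hu3⟩ := abs_le.mp hu1
      have e1 : |x + z| ^ p = |x| ^ p * (1 + u) ^ p := by
        rw [← Real.mul_rpow hx0.le (by linarith), ← abs_of_nonneg (show 0 ≤ 1 + u by linarith),
          ← abs_mul, hz]
        congr 2
        ring
      have e2 : |x - z| ^ p = |x| ^ p * (1 + -u) ^ p := by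
        rw [← Real.mul_rpow hx0.le (by linarith), ← abs_of_nonneg (show 0 ≤ 1 + -u by linarith),
          ← abs_mul, hz]
        congr 2
        ring
      have e3 : |x| ^ (p - 2) * z ^ 2 = |x| ^ p * u ^ 2 := by
        have : |x| ^ p = |x| ^ (p - 2) * |x| ^ 2 := by
          rw [← Real.rpow_natCast, ← Real.rpow_add hx0]
          congr 1
          push_cast
          ring
        rw [this, sq_abs, hz]
        ring
      have b1 := one_add_rpow_le (u := u) hp0 (by linarith)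
      have b2 := one_add_rpow_le (u := -u) hp0 (by linarith)
      have b3 := Real.cosh_le_exp_half_sq (p * u)
      rw [Real.cosh_eq] at b3
      have b4 : Real.exp ((p * u) ^ 2 / 2) ≤ 1 + p ^ 2 * Real.exp (p ^ 2) * u ^ 2 := by
        set y := (p * u) ^ 2 / 2 with hy
        have y0 : 0 ≤ y := by positivity
        have y1 : y ≤ p ^ 2 * u ^ 2 := by rw [hy]; nlinarith [sq_nonneg (p * u)]
        have y2 : u ^ 2 ≤ 1 := by nlinarith
        have y3 : y ≤ p ^ 2 := by nlinarith [sq_nonneg p]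
        have y4 : Real.exp y * (1 - y) ≤ 1 := by
          have := Real.add_one_le_exp (-y)
          have h5 : Real.exp y * Real.exp (-y) = 1 := by rw [← Real.exp_add]; simp
          nlinarith [Real.exp_pos y]
        have y5 : Real.exp y ≤ Real.exp (p ^ 2) := Real.exp_le_exp.mpr y3
        have y6 : Real.exp y * y ≤ Real.exp (p ^ 2) * (p ^ 2 * u ^ 2) :=
          mul_le_mul y5 y1 y0 (Real.exp_pos _).le
        nlinarith
      rw [e1, e2, e3]
      have b5 : ((1 + u) ^ p + (1 + -u) ^ p) / 2 ≤ 1 + p ^ 2 * Real.exp (p ^ 2) * u ^ 2 := by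
        have : p * -u = -(p * u) := by ring
        rw [this] at b2
        linarith
      have b6 := mul_le_mul_of_nonneg_left b5 a1
      have b7 : 0 ≤ |x| ^ p * u ^ 2 := by positivity
      nlinarith [mul_nonneg a4 b7, mul_nonneg a4 a3, mul_nonneg a5 a3]

theorem count_pow_le (p : ℝ) : ∃ C : ℝ, 0 < C ∧ ∀ k : ℕ, 2 ≤ k →
    (k : ℝ) ^ p ≤ C * (3 ^ k - 1 - 2 * k) := by
  refine ⟨3 * (Nat.factorial ⌈p⌉₊), by positivity, fun k hk => ?_⟩
  have hk1 : (1 : ℝ) ≤ k := by exact_mod_cast (by omega : 1 ≤ k)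
  have h1 : (k : ℝ) ^ p ≤ (k : ℝ) ^ ⌈p⌉₊ := by
    rw [← Real.rpow_natCast]
    exact Real.rpow_le_rpow_of_exponent_le hk1 (Nat.le_ceil p)
  have h2 := Real.pow_div_factorial_le_exp (k : ℝ) (by linarith) ⌈p⌉₊
  have hf : (0 : ℝ) < Nat.factorial ⌈p⌉₊ := by positivity
  rw [div_le_iff₀ hf] at h2
  have h3 : Real.exp k ≤ 3 ^ k := by
    rw [← Real.exp_one_pow]
    exact pow_le_pow_left₀ (Real.exp_pos 1).le (by linarith [Real.exp_one_lt_d9]) k
  have h4 : ∀ j : ℕ, (3 : ℝ) ^ (j + 2) ≤ 3 * (3 ^ (j + 2) - 1 - 2 * ((j + 2 : ℕ) : ℝ)) := by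
    intro j
    induction j with
    | zero => norm_num
    | succ j ih =>
      have e : (3 : ℝ) ^ (j + 1 + 2) = 3 * 3 ^ (j + 2) := by ring
      rw [e]
      push_cast at ih ⊢
      have : (0 : ℝ) ≤ j := by positivity
      nlinarith
  obtain ⟨j, rfl⟩ : ∃ j, k = j + 2 := ⟨k - 2, by omega⟩
  have h5 := h4 j
  nlinarith

end Crest.Agent.R232
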