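import Crest.Agent.R232.Ineq

set_option autoImplicit false
open MeasureTheory
open scoped ENNReal

namespace Crest.Agent.R232

theorem strict_super {t a b : ℝ} (ht : 1 < t) (ha : 0 < a) (hb : 0 < b) :
    a ^ t + b ^ t < (a + b) ^ t := by
  have e : ∀ x : ℝ, 0 < x → x ^ t = x * x ^ (t - 1) := by
    intro x hx
    rw [Real.rpow_sub_one hx.ne']
    field_simp
  have h1 := Real.rpow_lt_rpow ha.le (show a < a + b by linarith) (show 0 < t - 1 by linarith)
  have h2 := Real.rpow_lt_rpow hb.le (show b < a + b by linarith) (show 0 < t - 1 by linarith)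
  rw [e a ha, e b hb, e (a + b) (by linarith)]
  nlinarith

theorem strict_sub {t a b : ℝ} (ht : t < 1) (ha : 0 < a) (hb : 0 < b) :
    (a + b) ^ t < a ^ t + b ^ t := by
  have e : ∀ x : ℝ, 0 < x → x ^ t = x * x ^ (t - 1) := by
    intro x hx
    rw [Real.rpow_sub_one hx.ne']
    field_simp
  have h1 := Real.rpow_lt_rpow_of_neg ha (show a < a + b by linarith) (show t - 1 < 0 by linarith)
  have h2 := Real.rpow_lt_rpow_of_neg hb (show b < a + b by linarith) (show t - 1 < 0 by linarith)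
  rw [e a ha, e b hb, e (a + b) (by linarith)]
  nlinarith

theorem par_zero {p x z : ℝ} (hp : 0 < p) (h : x * z = 0) :
    |x + z| ^ p = |x| ^ p + |z| ^ p ∧ |x - z| ^ p = |x| ^ p + |z| ^ p := by
  rcases mul_eq_zero.mp h with h | h <;> subst h <;> simp [Real.zero_rpow hp.ne']

theorem par_lt {p x z : ℝ} (hp0 : 0 < p) (hp : p < 2) (h : x * z ≠ 0) :
    |x + z| ^ p + |x - z| ^ p < 2 * |x| ^ p + 2 * |z| ^ p := by
  simp only [abs_rpow_eq]
  have h1 := (Real.concaveOn_rpow (p := p / 2) (by linarith) (by linarith)).2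
    (Set.mem_Ici.mpr (sq_nonneg (x + z)))
    (Set.mem_Ici.mpr (sq_nonneg (x - z))) (show (0:ℝ) ≤ 1 / 2 by norm_num)
    (show (0:ℝ) ≤ 1 / 2 by norm_num) (by norm_num)
  simp only [smul_eq_mul] at h1
  have e : 1 / 2 * (x + z) ^ 2 + 1 / 2 * (x - z) ^ 2 = x ^ 2 + z ^ 2 := by ring
  rw [e] at h1
  have hx : x ≠ 0 := left_ne_zero_of_mul h
  have hz : z ≠ 0 := right_ne_zero_of_mul h
  have h2 := strict_sub (t := p / 2) (by linarith) (show 0 < x ^ 2 by positivity)
    (show 0 < z ^ 2 by positivity)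
  linarith

theorem par_gt {p x z : ℝ} (hp : 2 < p) (h : x * z ≠ 0) :
    2 * |x| ^ p + 2 * |z| ^ p < |x + z| ^ p + |x - z| ^ p := by
  simp only [abs_rpow_eq]
  have h1 := (convexOn_rpow (p := p / 2) (by linarith)).2
    (Set.mem_Ici.mpr (sq_nonneg (x + z)))
    (Set.mem_Ici.mpr (sq_nonneg (x - z))) (show (0:ℝ) ≤ 1 / 2 by norm_num)
    (show (0:ℝ) ≤ 1 / 2 by norm_num) (by norm_num)
  simp only [smul_eq_mul] at h1
  have e : 1 / 2 * (x + z) ^ 2 + 1 / 2 * (x - z) ^ 2 = x ^ 2 + z ^ 2 := by ring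
  rw [e] at h1
  have hx : x ≠ 0 := left_ne_zero_of_mul h
  have hz : z ≠ 0 := right_ne_zero_of_mul h
  have h2 := strict_super (t := p / 2) (by linarith) (show 0 < x ^ 2 by positivity)
    (show 0 < z ^ 2 by positivity)
  linarith

theorem disj_of_par {ι : Type} [Fintype ι] {p : ℝ} (hp0 : 0 < p) (hp : p ≠ 2) (a b : ι → ℝ)
    (h : ∑ r, |a r + b r| ^ p + ∑ r, |a r - b r| ^ p =
      2 * ∑ r, |a r| ^ p + 2 * ∑ r, |b r| ^ p) (r : ι) : a r * b r = 0 := by
  by_contra hr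
  rw [Finset.mul_sum, Finset.mul_sum, ← Finset.sum_add_distrib, ← Finset.sum_add_distrib] at h
  rcases lt_or_gt_of_ne hp with hp | hp
  · refine (Finset.sum_lt_sum (fun i _ => ?_) ⟨r, Finset.mem_univ _, par_lt hp0 hp hr⟩).ne h
    by_cases hi : a i * b i = 0
    · obtain ⟨e1, e2⟩ := par_zero hp0 hi
      linarith
    · exact (par_lt hp0 hp hi).le
  · refine (Finset.sum_lt_sum (fun i _ => ?_) ⟨r, Finset.mem_univ _, par_gt hp hr⟩).ne h.symm
    by_cases hi : a i * b i = 0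
    · obtain ⟨e1, e2⟩ := par_zero hp0 hi
      linarith
    · exact (par_gt hp hi).le

theorem mid_lt {p x z : ℝ} (hp : 1 < p) (h : z ≠ -x) :
    |x - z| ^ p < 2 ^ p / 2 * (|x| ^ p + |z| ^ p) := by
  have hp0 : 0 < p := by linarith
  have h2 : (0 : ℝ) < 2 ^ p := by positivity
  have key : ∀ a b : ℝ, 0 ≤ a → 0 ≤ b → (a + b) ^ p = 2 ^ p * (1 / 2 * a + 1 / 2 * b) ^ p := by
    intro a b ha hb
    rw [← Real.mul_rpow (by norm_num) (by positivity)]
    congr 1
    ring
  by_cases hxz : |x| = |z|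
  · have h3 : x = z := by
      rcases abs_eq_abs.mp hxz with h' | h'
      · exact h'
      · exact absurd (by rw [h']; ring) h
    subst h3
    have hx : x ≠ 0 := by
      intro h'
      apply h
      simp [h']
    have : 0 < |x| ^ p := by positivity
    rw [sub_self, abs_zero, Real.zero_rpow hp0.ne']
    positivity
  · have h1 := (strictConvexOn_rpow hp).2 (Set.mem_Ici.mpr (abs_nonneg x))
      (Set.mem_Ici.mpr (abs_nonneg z)) hxz (show (0:ℝ) < 1 / 2 by norm_num)
      (show (0:ℝ) < 1 / 2 by norm_num) (by norm_num)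
    simp only [smul_eq_mul] at h1
    have h4 := Real.rpow_le_rpow (abs_nonneg _) (abs_sub x z) hp0.le
    rw [key _ _ (abs_nonneg x) (abs_nonneg z)] at h4
    nlinarith

theorem neg_of_mid {ι : Type} [Fintype ι] {p : ℝ} (hp : 1 < p) (a b : ι → ℝ)
    (h : ∑ r, |a r - b r| ^ p = 2 ^ p / 2 * (∑ r, |a r| ^ p + ∑ r, |b r| ^ p)) (r : ι) :
    b r = - a r := by
  by_contra hr
  rw [← Finset.sum_add_distrib, Finset.mul_sum] at h
  refine (Finset.sum_lt_sum (fun i _ => ?_) ⟨r, Finset.mem_univ _, mid_lt hp hr⟩).ne h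
  by_cases hi : b i = - a i
  · rw [hi, sub_neg_eq_add, abs_neg, ← two_mul, abs_mul, Real.mul_rpow (by positivity)
      (by positivity), abs_two]
    linarith
  · exact (mid_lt hp hi).le

/-- rigidity: disjointly supported families go to disjointly supported families. -/
theorem disj_image {α ι : Type} [Fintype α] [Fintype ι] {p σ : ℝ} (hp1 : 1 < p) (hp : p ≠ 2)
    (S : Set (α → ℝ)) (Y : (α → ℝ) → ι → ℝ)
    (hY : ∀ v ∈ S, ∀ w ∈ S, ∑ r, |Y v r - Y w r| ^ p = σ * ∑ a, |v a - w a| ^ p)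
    (h0 : (0 : α → ℝ) ∈ S) {v w : α → ℝ} (hv : v ∈ S) (hw : w ∈ S) (hw' : -w ∈ S)
    (hvw : ∀ a, v a * w a = 0) (r : ι) : (Y v r - Y 0 r) * (Y w r - Y 0 r) = 0 := by
  have hp0 : 0 < p := by linarith
  have n1 := hY v hv 0 h0
  have n2 := hY w hw 0 h0
  have n3 := hY (-w) hw' 0 h0
  have n4 := hY w hw (-w) hw'
  have n5 := hY v hv w hw
  have n6 := hY v hv (-w) hw'
  simp only [Pi.zero_apply, sub_zero, Pi.neg_apply, abs_neg, sub_neg_eq_add] at n1 n2 n3 n4 n5 n6
  have hneg : ∀ r, Y (-w) r - Y 0 r = -(Y w r - Y 0 r) := by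
    refine neg_of_mid hp1 (fun r => Y w r - Y 0 r) (fun r => Y (-w) r - Y 0 r) ?_
    simp only [sub_sub_sub_cancel_right]
    rw [n4, n2, n3]
    have : ∀ a, |w a + w a| ^ p = 2 ^ p * |w a| ^ p := by
      intro a
      rw [← two_mul, abs_mul, Real.mul_rpow (by positivity) (by positivity), abs_two]
    simp only [this]
    rw [← Finset.mul_sum]
    ring
  refine disj_of_par hp0 hp (fun r => Y v r - Y 0 r) (fun r => Y w r - Y 0 r) ?_ r
  have e1 : ∀ r, Y v r - Y 0 r + (Y w r - Y 0 r) = Y v r - Y (-w) r := by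
    intro r
    have := hneg r
    linarith
  simp only [sub_sub_sub_cancel_right, e1]
  rw [n1, n2, n5, n6]
  simp only [fun a => (par_zero hp0 (hvw a)).1, fun a => (par_zero hp0 (hvw a)).2,
    Finset.sum_add_distrib]
  ring

theorem grid_bound {k : ℕ} {ι : Type} [Fintype ι] {p σ : ℝ} (hp1 : 1 < p) (hp : p ≠ 2)
    (hσ : 0 < σ) (S : Set (Fin k × Fin k → ℝ)) (Y : (Fin k × Fin k → ℝ) → ι → ℝ)
    (hY : ∀ v ∈ S, ∀ w ∈ S, ∑ r, |Y v r - Y w r| ^ p = σ * ∑ a, |v a - w a| ^ p)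
    (h0 : (0 : Fin k × Fin k → ℝ) ∈ S)
    (hR : ∀ i : Fin k, (fun a : Fin k × Fin k => if a.1 = i then (1 : ℝ) else 0) ∈ S)
    (hR' : ∀ i : Fin k, -(fun a : Fin k × Fin k => if a.1 = i then (1 : ℝ) else 0) ∈ S)
    (hC : ∀ i : Fin k, (fun a : Fin k × Fin k => if a.2 = i then (1 : ℝ) else 0) ∈ S)
    (hC' : ∀ i : Fin k, -(fun a : Fin k × Fin k => if a.2 = i then (1 : ℝ) else 0) ∈ S) :
    k ^ 2 ≤ Fintype.card ι := by
  have hp0 : 0 < p := by linarith
  let R : Fin k → Fin k × Fin k → ℝ := fun i a => if a.1 = i then 1 else 0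
  let C : Fin k → Fin k × Fin k → ℝ := fun i a => if a.2 = i then 1 else 0
  have hex : ∀ e : Fin k × Fin k, ∃ r, (Y (R e.1) r - Y 0 r) * (Y (C e.2) r - Y 0 r) ≠ 0 := by
    intro e
    by_contra hcon
    push Not at hcon
    have n1 := hY _ (hR e.1) 0 h0
    have n2 := hY _ (hC e.2) 0 h0
    have n3 := hY _ (hR e.1) _ (hC e.2)
    have n4 : ∑ r, |Y (R e.1) r - Y (C e.2) r| ^ p =
        ∑ r, |Y (R e.1) r - Y 0 r| ^ p + ∑ r, |Y (C e.2) r - Y 0 r| ^ p := by
      rw [← Finset.sum_add_distrib]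
      refine Finset.sum_congr rfl fun r _ => ?_
      rw [← (par_zero hp0 (hcon r)).2, sub_sub_sub_cancel_right]
    have n5 : ∑ a, |R e.1 a - C e.2 a| ^ p < ∑ a, (|R e.1 a - 0| ^ p + |C e.2 a - 0| ^ p) := by
      refine Finset.sum_lt_sum (fun a _ => ?_) ⟨e, Finset.mem_univ _, ?_⟩
      · simp only [R, C]
        split_ifs <;> simp [Real.zero_rpow hp0.ne']
      · simp [R, C, Real.zero_rpow hp0.ne']
    rw [Finset.sum_add_distrib] at n5
    have n6 := mul_lt_mul_of_pos_left n5 hσ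
    simp only [Pi.zero_apply] at n1 n2
    change ∑ r, |Y (R e.1) r - Y 0 r| ^ p = σ * ∑ a, |R e.1 a - 0| ^ p at n1
    change ∑ r, |Y (C e.2) r - Y 0 r| ^ p = σ * ∑ a, |C e.2 a - 0| ^ p at n2
    change ∑ r, |Y (R e.1) r - Y (C e.2) r| ^ p = σ * ∑ a, |R e.1 a - C e.2 a| ^ p at n3
    linarith
  choose ρ hρ using hex
  have hinj : Function.Injective ρ := by
    intro e e' h
    have a1 := hρ e
    have a2 := hρ e'
    rw [← h] at a2
    refine Prod.ext ?_ ?_
    · by_contra hne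
      have := disj_image hp1 hp S Y hY h0 (hR e.1) (hR e'.1) (hR' e'.1) (fun a => by
        by_cases h1 : a.1 = e.1
        · have : a.1 ≠ e'.1 := fun h2 => hne (h1.symm.trans h2)
          simp [this]
        · simp [h1]) (ρ e)
      exact mul_ne_zero (left_ne_zero_of_mul a1) (left_ne_zero_of_mul a2) this
    · by_contra hne
      have := disj_image hp1 hp S Y hY h0 (hC e.2) (hC e'.2) (hC' e'.2) (fun a => by
        by_cases h1 : a.2 = e.2
        · have : a.2 ≠ e'.2 := fun h2 => hne (h1.symm.trans h2)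
          simp [this]
        · simp [h1]) (ρ e)
      exact mul_ne_zero (right_ne_zero_of_mul a1) (right_ne_zero_of_mul a2) this
  have := Fintype.card_le_of_injective ρ hinj
  simpa [sq] using this

theorem norm_toLp_count (p : ℝ≥0∞) [Fact (1 ≤ p)] (hptop : p ≠ ⊤) {α : Type} [Fintype α]
    [MeasurableSpace α] [DiscreteMeasurableSpace α] (v w : α → ℝ) :
    ‖(MemLp.of_discrete : MemLp v p Measure.count).toLp v -
      (MemLp.of_discrete : MemLp w p Measure.count).toLp w‖ =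
      (∑ a, |v a - w a| ^ p.toReal) ^ (1 / p.toReal) := by
  have hp1 : 1 ≤ p := Fact.out
  have hp0 : p ≠ 0 := by
    intro h
    rw [h] at hp1
    simp at hp1
  have hq : 0 < p.toReal := ENNReal.toReal_pos hp0 hptop
  rw [← MemLp.toLp_sub, Lp.norm_toLp, eLpNorm_eq_eLpNorm' hp0 hptop, eLpNorm'_eq_lintegral_enorm,
    lintegral_fintype, ← ENNReal.toReal_rpow, ENNReal.toReal_sum]
  · congr 1
    refine Finset.sum_congr rfl fun a _ => ?_
    rw [Measure.count_singleton, mul_one, ← ENNReal.toReal_rpow, toReal_enorm, Real.norm_eq_abs,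
      Pi.sub_apply]
  · intro a _
    rw [Measure.count_singleton, mul_one]
    exact ENNReal.rpow_ne_top_of_nonneg hq.le enorm_ne_top

end Crest.Agent.R232
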