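import Mathlib

/-! Row 232: localization of electrical flows through entropy dissipation. -/

open Finset

namespace Crest.Agent.R232

set_option linter.unusedSectionVars false

variable {X : Type} [Fintype X]

/-- slopes of a function along ordered pairs -/
noncomputable def grad (d : X × X → ℝ) (u : X → ℝ) (e : X × X) : ℝ := (u e.1 - u e.2) / d e

/-- a kernel acting on functions of pairs -/
def app (P : X × X → X × X → ℝ) (s : X × X → ℝ) (e : X × X) : ℝ := ∑ f, P e f * s f

namespace Loc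

variable (a d : X × X → ℝ)

noncomputable def W (x y : X) : ℝ := a (x, y) / d (x, y) ^ 2 + a (y, x) / d (y, x) ^ 2

def m (x : X) : ℝ := ∑ y, (a (x, y) + a (y, x))

noncomputable def En (g h : X → ℝ) : ℝ := ∑ e, a e * (grad d g e * grad d h e)

noncomputable def Lap (h : X → ℝ) (x : X) : ℝ := ∑ y, W a d x y * (h x - h y)

noncomputable def Q (η : ℝ) : Module.End ℝ (X → ℝ) where
  toFun h := fun x => h x - η / m a x * Lap a d h x
  map_add' g h := by
    funext x
    simp only [Lap, Pi.add_apply]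
    have : ∑ y, W a d x y * (g x + h x - (g y + h y)) =
        ∑ y, W a d x y * (g x - g y) + ∑ y, W a d x y * (h x - h y) := by
      rw [← Finset.sum_add_distrib]
      exact Finset.sum_congr rfl fun y _ => by ring
    rw [this]
    ring
  map_smul' c h := by
    funext x
    simp only [Lap, Pi.smul_apply, smul_eq_mul, RingHom.id_apply]
    have : ∑ y, W a d x y * (c * h x - c * h y) = c * ∑ y, W a d x y * (h x - h y) := by
      rw [Finset.mul_sum]
      exact Finset.sum_congr rfl fun y _ => by ring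
    rw [this]
    ring

theorem Q_apply (η : ℝ) (h : X → ℝ) (x : X) :
    Q a d η h x = h x - η / m a x * Lap a d h x := rfl

theorem sum_W (F : X → X → ℝ) :
    ∑ x, ∑ y, W a d x y * F x y = ∑ e : X × X, a e / d e ^ 2 * (F e.1 e.2 + F e.2 e.1) := by
  have h1 : ∑ x, ∑ y, W a d x y * F x y =
      ∑ x, ∑ y, a (x, y) / d (x, y) ^ 2 * F x y + ∑ x, ∑ y, a (y, x) / d (y, x) ^ 2 * F x y := by
    rw [← Finset.sum_add_distrib]
    refine Finset.sum_congr rfl fun x _ => ?_
    rw [← Finset.sum_add_distrib]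
    exact Finset.sum_congr rfl fun y _ => by unfold W; ring
  rw [h1, Finset.sum_comm (f := fun x y => a (y, x) / d (y, x) ^ 2 * F x y),
    ← Finset.sum_add_distrib, Fintype.sum_prod_type]
  refine Finset.sum_congr rfl fun x _ => ?_
  rw [← Finset.sum_add_distrib]
  exact Finset.sum_congr rfl fun y _ => by ring

theorem sum_m (F : X → ℝ) : ∑ x, m a x * F x = ∑ e : X × X, a e * (F e.1 + F e.2) := by
  have h1 : ∑ x, m a x * F x = ∑ x, ∑ y, a (x, y) * F x + ∑ x, ∑ y, a (y, x) * F x := by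
    rw [← Finset.sum_add_distrib]
    refine Finset.sum_congr rfl fun x _ => ?_
    rw [← Finset.sum_add_distrib, m, Finset.sum_mul]
    exact Finset.sum_congr rfl fun y _ => by ring
  rw [h1, Finset.sum_comm (f := fun x y => a (y, x) * F x),
    ← Finset.sum_add_distrib, Fintype.sum_prod_type]
  refine Finset.sum_congr rfl fun x _ => ?_
  rw [← Finset.sum_add_distrib]
  exact Finset.sum_congr rfl fun y _ => by ring

theorem green (g h : X → ℝ) : ∑ x, g x * Lap a d h x = En a d g h := by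
  have h1 : ∑ x, g x * Lap a d h x = ∑ x, ∑ y, W a d x y * (g x * (h x - h y)) := by
    refine Finset.sum_congr rfl fun x _ => ?_
    rw [Lap, Finset.mul_sum]
    exact Finset.sum_congr rfl fun y _ => by ring
  rw [h1, sum_W a d (fun x y => g x * (h x - h y)), En]
  refine Finset.sum_congr rfl fun e _ => ?_
  unfold grad
  ring

theorem En_comm (g h : X → ℝ) : En a d g h = En a d h g := by
  unfold En
  exact Finset.sum_congr rfl fun e _ => by ring

variable {a d}

theorem m_pos (ha : ∀ e, 0 < a e) (x : X) : 0 < m a x :=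
  Finset.sum_pos (fun _ _ => add_pos (ha _) (ha _)) ⟨x, Finset.mem_univ x⟩

theorem W_nonneg (ha : ∀ e, 0 < a e) (x y : X) : 0 ≤ W a d x y := by
  unfold W
  have := ha (x, y)
  have := ha (y, x)
  positivity

theorem ip_Q (ha : ∀ e, 0 < a e) (η : ℝ) (g h : X → ℝ) :
    ∑ x, m a x * (g x * Q a d η h x) = ∑ x, m a x * (g x * h x) - η * En a d g h := by
  rw [← green, Finset.mul_sum, ← Finset.sum_sub_distrib]
  refine Finset.sum_congr rfl fun x _ => ?_
  rw [Q_apply]
  have := (m_pos ha x).ne'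
  field_simp

theorem Q_symm (ha : ∀ e, 0 < a e) (η : ℝ) (g h : X → ℝ) :
    ∑ x, m a x * (g x * Q a d η h x) = ∑ x, m a x * (Q a d η g x * h x) := by
  rw [ip_Q ha, En_comm]
  have := ip_Q (d := d) ha η h g
  simp_rw [mul_comm (h _)] at this
  rw [this]

theorem Qpow_symm (ha : ∀ e, 0 < a e) (η : ℝ) (j : ℕ) (g h : X → ℝ) :
    ∑ x, m a x * (g x * (Q a d η ^ j) h x) = ∑ x, m a x * ((Q a d η ^ j) g x * h x) := by
  induction j generalizing g with
  | zero => simp
  | succ j ih =>
    have e1 : (Q a d η ^ (j + 1)) h = Q a d η ((Q a d η ^ j) h) := by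
      rw [pow_succ', Module.End.mul_apply]
    have e2 : (Q a d η ^ (j + 1)) g = (Q a d η ^ j) (Q a d η g) := by
      rw [pow_succ, Module.End.mul_apply]
    rw [e1, e2, Q_symm ha, ih]

theorem mass_Q (ha : ∀ e, 0 < a e) (η : ℝ) (h : X → ℝ) :
    ∑ x, m a x * Q a d η h x = ∑ x, m a x * h x := by
  have := ip_Q (d := d) ha η (fun _ => 1) h
  simp only [one_mul] at this
  rw [this]
  simp [En, grad]

theorem Q_const (η c : ℝ) : Q a d η (fun _ => c) = fun _ => c := by
  funext x
  simp [Q_apply, Lap]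

theorem Qpow_const (η c : ℝ) (j : ℕ) : (Q a d η ^ j) (fun _ => c) = fun _ => c := by
  induction j with
  | zero => simp
  | succ j ih => rw [pow_succ, Module.End.mul_apply, Q_const, ih]

theorem Q_markov (η : ℝ) (h : X → ℝ) (x : X) :
    Q a d η h x = (1 - ∑ y, η / m a x * W a d x y) * h x + ∑ y, η / m a x * W a d x y * h y := by
  rw [Q_apply, Lap, Finset.mul_sum, sub_mul, one_mul, Finset.sum_mul, sub_add,
    ← Finset.sum_sub_distrib]
  congr 1
  exact Finset.sum_congr rfl fun y _ => by ring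

theorem bregman {u v : ℝ} (hu : 0 < u) (hv : 0 < v) :
    (Real.sqrt u - Real.sqrt v) ^ 2 ≤ u * Real.log u - u * Real.log v - u + v := by
  have su := Real.sqrt_pos.mpr hu
  have sv := Real.sqrt_pos.mpr hv
  have h1 : Real.log (Real.sqrt v / Real.sqrt u) ≤ Real.sqrt v / Real.sqrt u - 1 :=
    Real.log_le_sub_one_of_pos (by positivity)
  rw [Real.log_div sv.ne' su.ne', Real.log_sqrt hu.le, Real.log_sqrt hv.le] at h1
  have h2 : Real.sqrt u * Real.sqrt u = u := Real.mul_self_sqrt hu.le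
  have h3 : Real.sqrt v * Real.sqrt v = v := Real.mul_self_sqrt hv.le
  have h4 : u * (Real.sqrt v / Real.sqrt u) = Real.sqrt u * Real.sqrt v := by
    field_simp
    nlinarith
  have h5 := mul_le_mul_of_nonneg_left h1 hu.le
  nlinarith

/-- the Fisher information -/
noncomputable def Fi (a d : X × X → ℝ) (p : X → ℝ) : ℝ :=
  ∑ e : X × X, a e / d e ^ 2 * (Real.sqrt (p e.1) - Real.sqrt (p e.2)) ^ 2

noncomputable def Ent (a : X × X → ℝ) (p : X → ℝ) : ℝ := ∑ x, m a x * (p x * Real.log (p x))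

theorem Q_pos (ha : ∀ e, 0 < a e) {η : ℝ} (hη : 0 < η)
    (hr : ∀ x, ∑ y, η / m a x * W a d x y ≤ 1 / 2) {p : X → ℝ} (hp : ∀ x, 0 < p x) (x : X) :
    0 < Q a d η p x := by
  rw [Q_markov]
  have h1 := hr x
  have h2 : 0 ≤ ∑ y, η / m a x * W a d x y * p y := Finset.sum_nonneg fun y _ =>
    mul_nonneg (mul_nonneg (div_pos hη (m_pos ha x)).le (W_nonneg ha x y)) (hp y).le
  have h3 := hp x
  nlinarith

theorem ent_step (ha : ∀ e, 0 < a e) {η : ℝ} (hη : 0 < η)
    (hr : ∀ x, ∑ y, η / m a x * W a d x y ≤ 1 / 2) {p : X → ℝ} (hp : ∀ x, 0 < p x) :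
    Ent a (Q a d η p) + η * Fi a d p ≤ Ent a p := by
  have key : ∀ x, Q a d η p x * Real.log (Q a d η p x) +
      1 / 2 * ∑ y, η / m a x * W a d x y * (Real.sqrt (p x) - Real.sqrt (p y)) ^ 2 ≤
      Q a d η (fun y => p y * Real.log (p y)) x := by
    intro x
    have hv := Q_pos ha hη hr hp x
    have e1 := Q_markov (a := a) (d := d) η p x
    rw [Q_markov (a := a) (d := d) η (fun y => p y * Real.log (p y)) x]
    set v := Q a d η p x with hvdef
    set k : X → ℝ := fun y => η / m a x * W a d x y with hk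
    have hk0 : ∀ y, 0 ≤ k y := fun y =>
      mul_nonneg (div_pos hη (m_pos ha x)).le (W_nonneg ha x y)
    have hρ : ∑ y, k y ≤ 1 / 2 := hr x
    have hρ0 : 0 ≤ ∑ y, k y := Finset.sum_nonneg fun y _ => hk0 y
    have b0 := bregman (hp x) hv
    have b1 : ∑ y, k y * (Real.sqrt (p y) - Real.sqrt v) ^ 2 ≤
        ∑ y, k y * (p y * Real.log (p y) - p y * Real.log v - p y + v) :=
      Finset.sum_le_sum fun y _ => mul_le_mul_of_nonneg_left (bregman (hp y) hv) (hk0 y)
    have e2 : ∑ y, k y * (p y * Real.log (p y) - p y * Real.log v - p y + v) =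
        ∑ y, k y * (p y * Real.log (p y)) - (∑ y, k y * p y) * (Real.log v + 1) +
          (∑ y, k y) * v := by
      rw [Finset.sum_mul, Finset.sum_mul, ← Finset.sum_sub_distrib, ← Finset.sum_add_distrib]
      exact Finset.sum_congr rfl fun y _ => by ring
    have b2 : ∑ y, k y * (Real.sqrt (p x) - Real.sqrt (p y)) ^ 2 ≤
        2 * ∑ y, k y * (Real.sqrt (p y) - Real.sqrt v) ^ 2 +
          2 * ((∑ y, k y) * (Real.sqrt (p x) - Real.sqrt v) ^ 2) := by
      rw [Finset.sum_mul, Finset.mul_sum, Finset.mul_sum, ← Finset.sum_add_distrib]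
      refine Finset.sum_le_sum fun y _ => ?_
      have := hk0 y
      nlinarith [mul_nonneg this (sq_nonneg (Real.sqrt (p x) + Real.sqrt (p y) - 2 * Real.sqrt v))]
    have b3 : (∑ y, k y) * (Real.sqrt (p x) - Real.sqrt v) ^ 2 ≤
        (1 - ∑ y, k y) * (p x * Real.log (p x) - p x * Real.log v - p x + v) :=
      mul_le_mul (by linarith) b0 (sq_nonneg _) (by linarith)
    change v * Real.log v + 1 / 2 * ∑ y, k y * (Real.sqrt (p x) - Real.sqrt (p y)) ^ 2 ≤
      (1 - ∑ y, k y) * (p x * Real.log (p x)) + ∑ y, k y * (p y * Real.log (p y))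
    have e3 : ∑ y, k y * p y = v - (1 - ∑ y, k y) * p x := by
      rw [e1]
      ring
    rw [e2, e3] at b1
    nlinarith
  have s1 := Finset.sum_le_sum fun x (_ : x ∈ Finset.univ) =>
    mul_le_mul_of_nonneg_left (key x) (m_pos ha x).le
  rw [mass_Q ha] at s1
  have e4 : ∑ x, m a x * (Q a d η p x * Real.log (Q a d η p x) +
      1 / 2 * ∑ y, η / m a x * W a d x y * (Real.sqrt (p x) - Real.sqrt (p y)) ^ 2) =
      Ent a (Q a d η p) + η / 2 * ∑ x, ∑ y, W a d x y *
        (Real.sqrt (p x) - Real.sqrt (p y)) ^ 2 := by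
    rw [Ent, Finset.mul_sum, ← Finset.sum_add_distrib]
    refine Finset.sum_congr rfl fun x _ => ?_
    rw [mul_add, Finset.mul_sum, Finset.mul_sum, Finset.mul_sum]
    congr 1
    refine Finset.sum_congr rfl fun y _ => ?_
    have := (m_pos ha x).ne'
    field_simp
  rw [e4, sum_W a d (fun x y => (Real.sqrt (p x) - Real.sqrt (p y)) ^ 2)] at s1
  have e5 : ∑ e : X × X, a e / d e ^ 2 * ((Real.sqrt (p e.1) - Real.sqrt (p e.2)) ^ 2 +
      (Real.sqrt (p e.2) - Real.sqrt (p e.1)) ^ 2) = 2 * Fi a d p := by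
    rw [Fi, Finset.mul_sum]
    exact Finset.sum_congr rfl fun e _ => by ring
  rw [e5] at s1
  unfold Ent at s1 ⊢
  linarith

theorem l1_sq_le (ha : ∀ e, 0 < a e) (hd : ∀ e, 0 < d e) {p : X → ℝ} (hp : ∀ x, 0 < p x) :
    (∑ e, a e * |grad d p e|) ^ 2 ≤ 2 * (∑ x, m a x * p x) * Fi a d p := by
  have h1 : ∀ e : X × X, a e * |grad d p e| =
      (Real.sqrt (a e) * (Real.sqrt (p e.1) + Real.sqrt (p e.2))) *
        (Real.sqrt (a e) / d e * |Real.sqrt (p e.1) - Real.sqrt (p e.2)|) := by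
    intro e
    have s1 : Real.sqrt (p e.1) * Real.sqrt (p e.1) = p e.1 := Real.mul_self_sqrt (hp _).le
    have s2 : Real.sqrt (p e.2) * Real.sqrt (p e.2) = p e.2 := Real.mul_self_sqrt (hp _).le
    have s3 : Real.sqrt (a e) * Real.sqrt (a e) = a e := Real.mul_self_sqrt (ha _).le
    have e1 : p e.1 - p e.2 = (Real.sqrt (p e.1) + Real.sqrt (p e.2)) *
        (Real.sqrt (p e.1) - Real.sqrt (p e.2)) := by linear_combination -s1 + s2
    rw [grad, abs_div, abs_of_pos (hd e), e1, abs_mul,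
      abs_of_nonneg (by positivity : 0 ≤ Real.sqrt (p e.1) + Real.sqrt (p e.2))]
    calc a e * ((Real.sqrt (p e.1) + Real.sqrt (p e.2)) *
          |Real.sqrt (p e.1) - Real.sqrt (p e.2)| / d e)
        = (Real.sqrt (a e) * Real.sqrt (a e)) * ((Real.sqrt (p e.1) + Real.sqrt (p e.2)) *
          |Real.sqrt (p e.1) - Real.sqrt (p e.2)| / d e) := by rw [s3]
      _ = _ := by ring
  simp_rw [h1]
  refine (Finset.sum_mul_sq_le_sq_mul_sq _ _ _).trans ?_
  have h2 : ∑ e : X × X, (Real.sqrt (a e) / d e * |Real.sqrt (p e.1) - Real.sqrt (p e.2)|) ^ 2 =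
      Fi a d p := by
    refine Finset.sum_congr rfl fun e _ => ?_
    rw [mul_pow, div_pow, Real.sq_sqrt (ha e).le, sq_abs]
  have h3 : ∑ e : X × X, (Real.sqrt (a e) * (Real.sqrt (p e.1) + Real.sqrt (p e.2))) ^ 2 ≤
      2 * ∑ x, m a x * p x := by
    rw [sum_m, Finset.mul_sum]
    refine Finset.sum_le_sum fun e _ => ?_
    rw [mul_pow, Real.sq_sqrt (ha e).le]
    have s1 : Real.sqrt (p e.1) * Real.sqrt (p e.1) = p e.1 := Real.mul_self_sqrt (hp _).le
    have s2 : Real.sqrt (p e.2) * Real.sqrt (p e.2) = p e.2 := Real.mul_self_sqrt (hp _).le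
    have : (Real.sqrt (p e.1) + Real.sqrt (p e.2)) ^ 2 ≤ 2 * (p e.1 + p e.2) := by
      nlinarith [sq_nonneg (Real.sqrt (p e.1) - Real.sqrt (p e.2))]
    nlinarith [ha e]
  rw [h2]
  refine mul_le_mul_of_nonneg_right h3 ?_
  exact Finset.sum_nonneg fun e _ => by have := ha e; positivity

end Loc

end Crest.Agent.R232
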