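import Crest.Agent.R232.Loc

/-! Row 232: the electrical projection has small average `ℓ¹` norm. -/

open Finset

namespace Crest.Agent.R232

set_option linter.unusedSectionVars false

variable {X : Type} [Fintype X] [DecidableEq X]

namespace Loc

variable {a d : X × X → ℝ}

noncomputable def p0 (a : X × X → ℝ) (z : X) : X → ℝ :=
  fun x => (if x = z then 1 / m a z else 0) + 1 / ∑ y, m a y

noncomputable def pj (a d : X × X → ℝ) (η : ℝ) (j : ℕ) (z : X) : X → ℝ := (Q a d η ^ j) (p0 a z)

noncomputable def A (a d : X × X → ℝ) (η : ℝ) (j : ℕ) (z : X) : ℝ :=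
  ∑ e, a e * |grad d (pj a d η j z) e|

theorem M_pos (ha : ∀ e, 0 < a e) (z : X) : 0 < ∑ y, m a y :=
  Finset.sum_pos (fun y _ => m_pos ha y) ⟨z, Finset.mem_univ z⟩

theorem m_le_M (ha : ∀ e, 0 < a e) (z : X) : m a z ≤ ∑ y, m a y :=
  Finset.single_le_sum (f := fun y => m a y) (fun y _ => (m_pos ha y).le) (Finset.mem_univ z)

theorem ip_p0 (ha : ∀ e, 0 < a e) (z : X) (h : X → ℝ) :
    ∑ x, m a x * (h x * p0 a z x) = h z + (∑ x, m a x * h x) / ∑ y, m a y := by
  have h1 : ∀ x, m a x * (h x * p0 a z x) =
      (if x = z then h z else 0) + m a x * h x / ∑ y, m a y := by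
    intro x
    unfold p0
    split_ifs with hx
    · subst hx
      have := (m_pos ha x).ne'
      field_simp
    · ring
  simp_rw [h1]
  rw [Finset.sum_add_distrib, Finset.sum_ite_eq' Finset.univ z, if_pos (Finset.mem_univ z),
    Finset.sum_div]

theorem p0_pos (ha : ∀ e, 0 < a e) (z x : X) : 0 < p0 a z x := by
  unfold p0
  have h1 := M_pos ha z
  have h2 := m_pos ha z
  split_ifs <;> positivity

theorem mass_pow (ha : ∀ e, 0 < a e) (η : ℝ) (j : ℕ) (h : X → ℝ) :
    ∑ x, m a x * (Q a d η ^ j) h x = ∑ x, m a x * h x := by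
  induction j with
  | zero => simp
  | succ j ih => rw [pow_succ', Module.End.mul_apply, mass_Q ha, ih]

theorem mass_p0 (ha : ∀ e, 0 < a e) (z : X) : ∑ x, m a x * p0 a z x = 2 := by
  have := ip_p0 ha z (fun _ => 1)
  simp only [one_mul, mul_one] at this
  rw [this, div_self (M_pos ha z).ne']
  norm_num

theorem mass_pj (ha : ∀ e, 0 < a e) (η : ℝ) (j : ℕ) (z : X) :
    ∑ x, m a x * pj a d η j z x = 2 := by
  unfold pj
  rw [mass_pow ha, mass_p0 ha]

theorem pj_succ (η : ℝ) (j : ℕ) (z : X) : pj a d η (j + 1) z = Q a d η (pj a d η j z) := by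
  unfold pj
  rw [pow_succ', Module.End.mul_apply]

section
variable (ha : ∀ e, 0 < a e) (hd : ∀ e, 0 < d e) {η : ℝ} (hη : 0 < η)
  (hr : ∀ x, ∑ y, η / m a x * W a d x y ≤ 1 / 2)
include ha hη hr

theorem pj_pos (j : ℕ) (z x : X) : 0 < pj a d η j z x := by
  induction j generalizing x with
  | zero => exact p0_pos ha z x
  | succ j ih =>
    rw [pj_succ]
    exact Q_pos ha hη hr ih x

theorem sum_Fi (K : ℕ) (z : X) :
    Ent a (pj a d η K z) + ∑ j ∈ range K, η * Fi a d (pj a d η j z) ≤ Ent a (p0 a z) := by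
  induction K with
  | zero => simp [pj]
  | succ K ih =>
    rw [Finset.sum_range_succ, pj_succ]
    have := ent_step ha hη hr (pj_pos ha hη hr K z)
    linarith

theorem sum_Fi' (K : ℕ) (z : X) :
    ∑ j ∈ range K, η * Fi a d (pj a d η j z) ≤ 2 * Real.log (2 * (∑ y, m a y) / m a z) := by
  have hM := M_pos ha z
  have hm := m_pos ha z
  have h1 : Ent a (p0 a z) ≤ 2 * Real.log (2 / m a z) := by
    rw [← mass_p0 ha z, Finset.sum_mul]
    refine Finset.sum_le_sum fun x _ => ?_
    rw [mul_assoc]
    refine mul_le_mul_of_nonneg_left (mul_le_mul_of_nonneg_left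
      (Real.log_le_log (p0_pos ha z x) ?_) (p0_pos ha z x).le) (m_pos ha x).le
    have h2 : 1 / ∑ y, m a y ≤ 1 / m a z := one_div_le_one_div_of_le hm (m_le_M ha z)
    have h3 : 2 / m a z = 1 / m a z + 1 / m a z := by ring
    have h4 : 0 < 1 / m a z := by positivity
    rw [mass_p0 ha z, h3]
    unfold p0
    split_ifs <;> linarith
  have h5 : 2 * Real.log (1 / ∑ y, m a y) ≤ Ent a (pj a d η K z) := by
    have h6 : ∑ x, m a x * (pj a d η K z x * (Real.log (1 / ∑ y, m a y) + 1) - 1 / ∑ y, m a y) ≤
        Ent a (pj a d η K z) := by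
      refine Finset.sum_le_sum fun x _ => mul_le_mul_of_nonneg_left ?_ (m_pos ha x).le
      have := bregman (pj_pos ha hη hr K z x) (show 0 < 1 / ∑ y, m a y by positivity)
      nlinarith [sq_nonneg (Real.sqrt (pj a d η K z x) - Real.sqrt (1 / ∑ y, m a y))]
    have h7 : ∑ x, m a x * (pj a d η K z x * (Real.log (1 / ∑ y, m a y) + 1) - 1 / ∑ y, m a y) =
        (∑ x, m a x * pj a d η K z x) * (Real.log (1 / ∑ y, m a y) + 1) -
          (∑ x, m a x) * (1 / ∑ y, m a y) := by
      rw [Finset.sum_mul, Finset.sum_mul, ← Finset.sum_sub_distrib]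
      exact Finset.sum_congr rfl fun x _ => by ring
    rw [h7, mass_pj ha, mul_one_div, div_self hM.ne'] at h6
    linarith
  have h8 := sum_Fi ha hη hr K z
  have h9 : Real.log (2 * (∑ y, m a y) / m a z) =
      Real.log (2 / m a z) - Real.log (1 / ∑ y, m a y) := by
    rw [← Real.log_div (by positivity) (by positivity)]
    congr 1
    field_simp
  rw [h9]
  linarith

include hd in
theorem sum_A_sq (K : ℕ) (z : X) :
    ∑ j ∈ range K, η * A a d η j z ^ 2 ≤ 8 * Real.log (2 * (∑ y, m a y) / m a z) := by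
  have h1 := sum_Fi' ha hη hr K z
  have h2 : ∑ j ∈ range K, η * A a d η j z ^ 2 ≤
      4 * ∑ j ∈ range K, η * Fi a d (pj a d η j z) := by
    rw [Finset.mul_sum]
    refine Finset.sum_le_sum fun j _ => ?_
    have := l1_sq_le ha hd (pj_pos ha hη hr j z)
    rw [mass_pj ha] at this
    unfold A
    nlinarith
  linarith

include hd in
theorem A_tendsto (z : X) : Filter.Tendsto (fun j => A a d η j z) Filter.atTop (nhds 0) := by
  have h1 : Summable fun j => η * A a d η j z ^ 2 :=
    summable_of_sum_range_le (fun j => by positivity) (fun K => sum_A_sq ha hd hη hr K z)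
  have h2 := (h1.tendsto_atTop_zero.const_mul (1 / η)).sqrt
  simp only [mul_zero, Real.sqrt_zero] at h2
  refine h2.congr fun j => ?_
  have h3 : 0 ≤ A a d η j z := Finset.sum_nonneg fun e _ => mul_nonneg (ha e).le (abs_nonneg _)
  rw [← mul_assoc, one_div, inv_mul_cancel₀ hη.ne', one_mul, Real.sqrt_sq h3]

end

theorem grad_pow (ha : ∀ e, 0 < a e) (η : ℝ) (i : ℕ) (h : X → ℝ) (e : X × X) :
    grad d ((Q a d η ^ i) h) e = ∑ z, m a z * h z * grad d (pj a d η i z) e := by
  have h1 : h = ∑ z, (m a z * h z) • p0 a z - fun _ => (∑ x, m a x * h x) / ∑ y, m a y := by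
    funext x
    simp only [Pi.sub_apply, Finset.sum_apply, Pi.smul_apply, smul_eq_mul]
    have h2 : ∀ z, m a z * h z * p0 a z x =
        (if x = z then h x else 0) + m a z * h z / ∑ y, m a y := by
      intro z
      unfold p0
      split_ifs with hx
      · subst hx
        have := (m_pos ha x).ne'
        field_simp
      · ring
    simp_rw [h2]
    rw [Finset.sum_add_distrib, Finset.sum_ite_eq Finset.univ x, if_pos (Finset.mem_univ x),
      Finset.sum_div]
    ring
  have h3 : (Q a d η ^ i) h = ∑ z, (m a z * h z) • pj a d η i z -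
      fun _ => (∑ x, m a x * h x) / ∑ y, m a y := by
    conv_lhs => rw [h1]
    rw [map_sub, map_sum, Qpow_const]
    simp only [map_smul, pj]
  rw [h3]
  simp only [grad, Pi.sub_apply, Finset.sum_apply, Pi.smul_apply, smul_eq_mul]
  rw [sub_sub_sub_cancel_right, ← Finset.sum_sub_distrib, Finset.sum_div]
  exact Finset.sum_congr rfl fun z _ => by ring

noncomputable def ell (a d : X × X → ℝ) (u : X → ℝ) : X → ℝ := fun x => Lap a d u x / m a x

theorem pow_ell (ha : ∀ e, 0 < a e) (η : ℝ) (j : ℕ) (u : X → ℝ) (z : X) :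
    (Q a d η ^ j) (ell a d u) z = En a d u (pj a d η j z) := by
  have h0 : ∀ g : X → ℝ, ∑ x, m a x * (ell a d u x * g x) = En a d g u := by
    intro g
    rw [← green]
    refine Finset.sum_congr rfl fun x _ => ?_
    unfold ell
    have := (m_pos ha x).ne'
    field_simp
  rw [En_comm, ← h0, pj, Qpow_symm ha, ip_p0 ha, mass_pow ha]
  have h1 := h0 (fun _ => 1)
  simp only [mul_one] at h1
  rw [h1]
  simp [En, grad]

theorem telescope (η : ℝ) (u : X → ℝ) (K : ℕ) :
    u = (Q a d η ^ (2 * K)) u + η • ∑ j ∈ range K,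
      ((Q a d η ^ j) ((Q a d η ^ j) (ell a d u)) +
        (Q a d η ^ (j + 1)) ((Q a d η ^ j) (ell a d u))) := by
  have h0 : u = Q a d η u + η • ell a d u := by
    funext x
    simp only [Pi.add_apply, Pi.smul_apply, smul_eq_mul, Q_apply, ell]
    ring
  have h1 : ∀ k : ℕ, (Q a d η ^ k) u = (Q a d η ^ (k + 1)) u + η • (Q a d η ^ k) (ell a d u) := by
    intro k
    conv_lhs => rw [h0]
    rw [map_add, map_smul, pow_succ, Module.End.mul_apply]
  induction K with
  | zero => simp
  | succ K ih =>
    rw [Finset.sum_range_succ, smul_add, ← Module.End.mul_apply, ← Module.End.mul_apply,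
      ← pow_add, ← pow_add]
    have e1 : 2 * (K + 1) = 2 * K + 1 + 1 := by ring
    have e2 : K + K = 2 * K := by ring
    have e3 : K + 1 + K = 2 * K + 1 := by ring
    rw [e1, e2, e3]
    conv_lhs => rw [ih, h1 (2 * K), h1 (2 * K + 1)]
    rw [smul_add]
    abel

theorem grad_add (u v : X → ℝ) (e : X × X) : grad d (u + v) e = grad d u e + grad d v e := by
  simp only [grad, Pi.add_apply]
  ring

theorem grad_smul (c : ℝ) (u : X → ℝ) (e : X × X) : grad d (c • u) e = c * grad d u e := by
  simp only [grad, Pi.smul_apply, smul_eq_mul]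
  ring

theorem grad_sum {ι : Type} (s : Finset ι) (u : ι → X → ℝ) (e : X × X) :
    grad d (∑ i ∈ s, u i) e = ∑ i ∈ s, grad d (u i) e := by
  simp only [grad, Finset.sum_apply]
  rw [← Finset.sum_sub_distrib, Finset.sum_div]

theorem exists_eta (ha : ∀ e, 0 < a e) :
    ∃ η : ℝ, 0 < η ∧ ∀ x, ∑ y, η / m a x * W a d x y ≤ 1 / 2 := by
  have h0 : ∀ x, 0 ≤ ∑ y, W a d x y / m a x := fun x =>
    Finset.sum_nonneg fun y _ => div_nonneg (W_nonneg ha x y) (m_pos ha x).le
  set R := ∑ x, ∑ y, W a d x y / m a x with hR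
  have hR0 : 0 ≤ R := Finset.sum_nonneg fun x _ => h0 x
  refine ⟨1 / (2 * R + 1), by positivity, fun x => ?_⟩
  have h1 : ∑ y, W a d x y / m a x ≤ R :=
    Finset.single_le_sum (f := fun x => ∑ y, W a d x y / m a x) (fun x _ => h0 x)
      (Finset.mem_univ x)
  have h2 : ∑ y, 1 / (2 * R + 1) / m a x * W a d x y =
      (∑ y, W a d x y / m a x) / (2 * R + 1) := by
    rw [Finset.sum_div]
    exact Finset.sum_congr rfl fun y _ => by ring
  rw [h2, div_le_iff₀ (by positivity)]
  linarith

theorem sum_log_le (ha : ∀ e, 0 < a e) :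
    ∑ z, m a z * Real.log (2 * (∑ y, m a y) / m a z) ≤
      2 * (∑ e, a e) * Real.log (2 * Fintype.card X) := by
  have hM : ∑ y, m a y = 2 * ∑ e, a e := by
    have := sum_m a (fun _ => 1)
    simp only [mul_one] at this
    rw [this, Finset.mul_sum]
    exact Finset.sum_congr rfl fun e _ => by ring
  have h1 : ∀ z, m a z * Real.log (2 * (∑ y, m a y) / m a z) ≤
      m a z * Real.log (2 * Fintype.card X) + ((∑ y, m a y) / Fintype.card X - m a z) := by
    intro z
    have hn : (0 : ℝ) < Fintype.card X := by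
      have : 0 < Fintype.card X := Fintype.card_pos_iff.mpr ⟨z⟩
      exact_mod_cast this
    have hm := m_pos ha z
    have hMp := M_pos ha z
    have h2 : Real.log (2 * (∑ y, m a y) / m a z) = Real.log (2 * Fintype.card X) +
        Real.log ((∑ y, m a y) / (Fintype.card X * m a z)) := by
      rw [← Real.log_mul (by positivity) (by positivity)]
      congr 1
      field_simp
    have h3 := Real.log_le_sub_one_of_pos
      (show 0 < (∑ y, m a y) / (Fintype.card X * m a z) by positivity)
    have h4 : m a z * ((∑ y, m a y) / (Fintype.card X * m a z) - 1) =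
        (∑ y, m a y) / Fintype.card X - m a z := by
      field_simp
    rw [h2, mul_add, ← h4]
    have := mul_le_mul_of_nonneg_left h3 hm.le
    linarith
  refine (Finset.sum_le_sum fun z _ => h1 z).trans ?_
  rw [Finset.sum_add_distrib, Finset.sum_sub_distrib, ← Finset.sum_mul, Finset.sum_const,
    Finset.card_univ, nsmul_eq_mul, ← hM]
  rcases isEmpty_or_nonempty X with hX | hX
  · simp
  · have hn : (0 : ℝ) < Fintype.card X := by
      have : 0 < Fintype.card X := Fintype.card_pos
      exact_mod_cast this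
    rw [mul_div_cancel₀ _ hn.ne']
    linarith

theorem localize (ha : ∀ e, 0 < a e) (hd : ∀ e, 0 < d e) (P : X × X → X × X → ℝ)
    (u : X × X → X → ℝ) (hu : ∀ e f, P e f = grad d (u f) e)
    (ho : ∀ f g, En a d (u f) g = a f * grad d g f) :
    ∑ e, a e * ∑ f, |P e f| ≤ 32 * (∑ e, a e) * Real.log (2 * Fintype.card X) := by
  obtain ⟨η, hη, hr⟩ := exists_eta (d := d) ha
  have hA : ∀ j z, 0 ≤ A a d η j z := fun j z =>
    Finset.sum_nonneg fun e _ => mul_nonneg (ha e).le (abs_nonneg _)
  have key : ∀ K, ∑ e, a e * ∑ f, |P e f| ≤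
      ∑ f, ∑ z, m a z * |u f z| * A a d η (2 * K) z +
        32 * (∑ e, a e) * Real.log (2 * Fintype.card X) := by
    intro K
    have h1 : ∀ e f, |P e f| ≤ ∑ z, m a z * |u f z| * |grad d (pj a d η (2 * K) z) e| +
        ∑ j ∈ range K, ∑ z, η * m a z * (a f * |grad d (pj a d η j z) f|) *
          (|grad d (pj a d η j z) e| + |grad d (pj a d η (j + 1) z) e|) := by
      intro e f
      rw [hu, telescope (a := a) (d := d) η (u f) K, grad_add, grad_smul, grad_sum,
        ← telescope (a := a) (d := d) η (u f) K]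
      refine (abs_add_le _ _).trans (add_le_add ?_ ?_)
      · rw [grad_pow ha]
        refine (Finset.abs_sum_le_sum_abs _ _).trans (le_of_eq ?_)
        refine Finset.sum_congr rfl fun z _ => ?_
        rw [abs_mul, abs_mul, abs_of_pos (m_pos ha z)]
      · rw [Finset.mul_sum]
        refine (Finset.abs_sum_le_sum_abs _ _).trans (Finset.sum_le_sum fun j _ => ?_)
        rw [grad_add, grad_pow ha, grad_pow ha η (j + 1), ← Finset.sum_add_distrib,
          Finset.mul_sum]
        refine (Finset.abs_sum_le_sum_abs _ _).trans (Finset.sum_le_sum fun z _ => ?_)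
        rw [pow_ell ha, ho, ← mul_add, abs_mul, abs_mul, abs_mul, abs_mul, abs_of_pos hη,
          abs_of_pos (m_pos ha z), abs_of_pos (ha f)]
        have h2 := abs_add_le (grad d (pj a d η j z) e) (grad d (pj a d η (j + 1) z) e)
        have h3 : 0 ≤ η * m a z * (a f * |grad d (pj a d η j z) f|) := by
          have := m_pos ha z
          have := ha f
          positivity
        calc η * (m a z * (a f * |grad d (pj a d η j z) f|) *
              |grad d (pj a d η j z) e + grad d (pj a d η (j + 1) z) e|)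
            = η * m a z * (a f * |grad d (pj a d η j z) f|) *
              |grad d (pj a d η j z) e + grad d (pj a d η (j + 1) z) e| := by ring
          _ ≤ _ := mul_le_mul_of_nonneg_left h2 h3
    have h4 : ∑ e, a e * ∑ f, |P e f| ≤
        ∑ e, a e * ∑ f, (∑ z, m a z * |u f z| * |grad d (pj a d η (2 * K) z) e| +
        ∑ j ∈ range K, ∑ z, η * m a z * (a f * |grad d (pj a d η j z) f|) *
          (|grad d (pj a d η j z) e| + |grad d (pj a d η (j + 1) z) e|)) :=
      Finset.sum_le_sum fun e _ => mul_le_mul_of_nonneg_left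
        (Finset.sum_le_sum fun f _ => h1 e f) (ha e).le
    have h5 : ∑ e, a e * ∑ f, ∑ z, m a z * |u f z| * |grad d (pj a d η (2 * K) z) e| =
        ∑ f, ∑ z, m a z * |u f z| * A a d η (2 * K) z := by
      simp only [A, Finset.mul_sum]
      rw [Finset.sum_comm]
      refine Finset.sum_congr rfl fun f _ => ?_
      rw [Finset.sum_comm]
      exact Finset.sum_congr rfl fun z _ => Finset.sum_congr rfl fun e _ => by ring
    have h6 : ∑ e, a e * ∑ f, ∑ j ∈ range K, ∑ z,
        η * m a z * (a f * |grad d (pj a d η j z) f|) *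
          (|grad d (pj a d η j z) e| + |grad d (pj a d η (j + 1) z) e|) =
        ∑ z, m a z * ∑ j ∈ range K, η * (A a d η j z * (A a d η j z + A a d η (j + 1) z)) := by
      have h7 : ∀ z j, m a z * (η * (A a d η j z * (A a d η j z + A a d η (j + 1) z))) =
          ∑ e, ∑ f, a e * (η * m a z * (a f * |grad d (pj a d η j z) f|) *
          (|grad d (pj a d η j z) e| + |grad d (pj a d η (j + 1) z) e|)) := by
        intro z j
        unfold A
        rw [← Finset.sum_add_distrib, Finset.sum_mul_sum, Finset.sum_comm, Finset.mul_sum,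
          Finset.mul_sum]
        refine Finset.sum_congr rfl fun e _ => ?_
        rw [Finset.mul_sum, Finset.mul_sum]
        exact Finset.sum_congr rfl fun f _ => by ring
      simp only [Finset.mul_sum (s := range K), h7]
      simp only [Finset.mul_sum]
      calc ∑ e, ∑ f, ∑ j ∈ range K, ∑ z, a e * (η * m a z * (a f * |grad d (pj a d η j z) f|) *
            (|grad d (pj a d η j z) e| + |grad d (pj a d η (j + 1) z) e|))
          = ∑ e, ∑ f, ∑ z, ∑ j ∈ range K, a e * (η * m a z * (a f * |grad d (pj a d η j z) f|) *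
            (|grad d (pj a d η j z) e| + |grad d (pj a d η (j + 1) z) e|)) :=
            Finset.sum_congr rfl fun e _ => Finset.sum_congr rfl fun f _ => Finset.sum_comm
        _ = ∑ e, ∑ z, ∑ j ∈ range K, ∑ f, a e * (η * m a z * (a f * |grad d (pj a d η j z) f|) *
            (|grad d (pj a d η j z) e| + |grad d (pj a d η (j + 1) z) e|)) := by
            refine Finset.sum_congr rfl fun e _ => ?_
            rw [Finset.sum_comm]
            exact Finset.sum_congr rfl fun z _ => Finset.sum_comm
        _ = _ := by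
            rw [Finset.sum_comm]
            exact Finset.sum_congr rfl fun z _ => Finset.sum_comm
    have h8 : ∀ z, ∑ j ∈ range K, η * (A a d η j z * (A a d η j z + A a d η (j + 1) z)) ≤
        16 * Real.log (2 * (∑ y, m a y) / m a z) := by
      intro z
      have s1 := sum_A_sq ha hd hη hr K z
      have s2 := sum_A_sq ha hd hη hr (K + 1) z
      rw [Finset.sum_range_succ'] at s2
      have s3 : 0 ≤ η * A a d η 0 z ^ 2 := by positivity
      have s4 : ∑ j ∈ range K, η * (A a d η j z * (A a d η j z + A a d η (j + 1) z)) ≤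
          3 / 2 * ∑ j ∈ range K, η * A a d η j z ^ 2 +
            1 / 2 * ∑ j ∈ range K, η * A a d η (j + 1) z ^ 2 := by
        rw [Finset.mul_sum, Finset.mul_sum, ← Finset.sum_add_distrib]
        refine Finset.sum_le_sum fun j _ => ?_
        nlinarith [mul_nonneg hη.le (sq_nonneg (A a d η j z - A a d η (j + 1) z))]
      linarith
    have h9 : ∑ z, m a z * ∑ j ∈ range K, η * (A a d η j z * (A a d η j z + A a d η (j + 1) z)) ≤
        16 * ∑ z, m a z * Real.log (2 * (∑ y, m a y) / m a z) := by
      rw [Finset.mul_sum]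
      refine Finset.sum_le_sum fun z _ => ?_
      have := mul_le_mul_of_nonneg_left (h8 z) (m_pos ha z).le
      linarith
    have h10 := sum_log_le ha
    simp only [Finset.sum_add_distrib, mul_add] at h4
    simp only [mul_add] at h6
    rw [h5] at h4
    simp only [Finset.sum_add_distrib, mul_add] at h6 h9
    linarith
  have lim : Filter.Tendsto (fun K => ∑ f, ∑ z, m a z * |u f z| * A a d η (2 * K) z +
      32 * (∑ e, a e) * Real.log (2 * Fintype.card X)) Filter.atTop
      (nhds (∑ f : X × X, ∑ z, m a z * |u f z| * 0 +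
        32 * (∑ e, a e) * Real.log (2 * Fintype.card X))) := by
    refine Filter.Tendsto.add_const _ (tendsto_finsetSum _ fun f _ =>
      tendsto_finsetSum _ fun z _ => Filter.Tendsto.const_mul _ ?_)
    exact (A_tendsto ha hd hη hr z).comp
      (Filter.tendsto_id.const_mul_atTop' (by norm_num : 0 < 2))
  simp only [mul_zero, Finset.sum_const_zero, zero_add] at lim
  exact ge_of_tendsto' lim key

end Loc

end Crest.Agent.R232
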