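import Crest.Agent.R232.Loc2

/-! Row 232: a projection onto gradients bounded on `ℓ¹`, `ℓ²` and `ℓ^∞`. -/

open Finset

namespace Crest.Agent.R232

set_option linter.unusedSectionVars false

variable {X : Type} [Fintype X] [DecidableEq X]

theorem exists_orth {a d : X × X → ℝ} (ha : ∀ e, 0 < a e) :
    ∃ P : X × X → X × X → ℝ, (∀ s, ∃ u, app P s = grad d u) ∧
      ∀ s g, ∑ e, a e * ((s e - app P s e) * grad d g e) = 0 := by
  let ι : (X × X → ℝ) →ₗ[ℝ] EuclideanSpace ℝ (X × X) :=
    { toFun := fun s => WithLp.toLp 2 fun e => Real.sqrt (a e) * s e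
      map_add' := fun s t => by
        ext e
        simp [mul_add]
      map_smul' := fun c s => by
        ext e
        simp
        ring }
  let D : (X → ℝ) →ₗ[ℝ] (X × X → ℝ) :=
    { toFun := fun u => grad d u
      map_add' := fun u v => funext fun e => Loc.grad_add u v e
      map_smul' := fun c u => funext fun e => Loc.grad_smul c u e }
  let V : Submodule ℝ (EuclideanSpace ℝ (X × X)) := LinearMap.range (ι ∘ₗ D)
  have hs : ∀ e, Real.sqrt (a e) ≠ 0 := fun e => (Real.sqrt_pos.mpr (ha e)).ne'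
  let P : X × X → X × X → ℝ := fun e f =>
    V.starProjection (ι (Pi.single f 1)) e / Real.sqrt (a e)
  have hP : ∀ s e, app P s e = V.starProjection (ι s) e / Real.sqrt (a e) := by
    intro s e
    have h1 : s = ∑ f, s f • (Pi.single f (1 : ℝ) : X × X → ℝ) := by
      funext x
      simp [Finset.sum_apply, Pi.single_apply]
    conv_rhs => rw [h1]
    rw [map_sum, map_sum]
    simp only [map_smul, app, P]
    rw [WithLp.ofLp_sum, Finset.sum_apply, Finset.sum_div]
    refine Finset.sum_congr rfl fun f _ => ?_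
    simp only [WithLp.ofLp_smul, Pi.smul_apply, smul_eq_mul]
    ring
  refine ⟨P, fun s => ?_, fun s g => ?_⟩
  · obtain ⟨u, hu⟩ : V.starProjection (ι s) ∈ V := V.starProjection_apply_mem _
    refine ⟨u, funext fun e => ?_⟩
    rw [hP, ← hu]
    change Real.sqrt (a e) * grad d u e / Real.sqrt (a e) = grad d u e
    field_simp [hs e]
  · have h1 := V.starProjection_inner_eq_zero (ι s) (ι (D g)) ⟨g, rfl⟩
    rw [PiLp.inner_apply] at h1
    rw [← h1]
    refine Finset.sum_congr rfl fun e _ => ?_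
    rw [hP]
    have h2 : Real.sqrt (a e) * Real.sqrt (a e) = a e := Real.mul_self_sqrt (ha e).le
    simp only [RCLike.inner_apply, conj_trivial, PiLp.sub_apply]
    change _ = Real.sqrt (a e) * grad d g e * (Real.sqrt (a e) * s e - _)
    have h3 := hs e
    set w := (V.starProjection (ι s)).ofLp e
    have h4 : w = Real.sqrt (a e) * (w / Real.sqrt (a e)) := by field_simp
    conv_rhs => rw [h4]
    linear_combination (-(s e - w / Real.sqrt (a e)) * grad d g e) * h2

theorem app_single (P : X × X → X × X → ℝ) (e f : X × X) : app P (Pi.single f 1) e = P e f := by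
  simp [app, Pi.single_apply]

theorem exists_elec {a d : X × X → ℝ} (ha : ∀ e, 0 < a e) (hd : ∀ e, 0 < d e) :
    ∃ P : X × X → X × X → ℝ, (∀ s, ∃ u, app P s = grad d u) ∧
      (∀ u, app P (grad d u) = grad d u) ∧
      (∀ s, ∑ e, a e * (app P s e - s e) ^ 2 ≤ ∑ e, a e * s e ^ 2) ∧
      ∑ e, a e * ∑ f, |P e f| ≤ 32 * (∑ e, a e) * Real.log (2 * Fintype.card X) := by
  obtain ⟨P, h1, h2⟩ := exists_orth (d := d) ha
  refine ⟨P, h1, fun u => ?_, fun s => ?_, ?_⟩
  · obtain ⟨v, hv⟩ := h1 (grad d u)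
    have h3 := h2 (grad d u) (u - v)
    rw [hv] at h3 ⊢
    have h4 : ∀ e, grad d (u - v) e = grad d u e - grad d v e := by
      intro e
      simp only [grad, Pi.sub_apply]
      ring
    simp_rw [h4] at h3
    have h5 := (Finset.sum_eq_zero_iff_of_nonneg (fun e _ =>
      mul_nonneg (ha e).le (mul_self_nonneg (grad d u e - grad d v e)))).mp h3
    funext e
    have h6 := h5 e (Finset.mem_univ e)
    rcases mul_eq_zero.mp h6 with h | h
    · exact absurd h (ha e).ne'
    · have := mul_self_eq_zero.mp h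
      linarith
  · obtain ⟨v, hv⟩ := h1 s
    have h3 := h2 s v
    rw [← hv] at h3
    have h4 : ∑ e, a e * s e ^ 2 = ∑ e, a e * (app P s e - s e) ^ 2 +
        ∑ e, a e * app P s e ^ 2 + 2 * ∑ e, a e * ((s e - app P s e) * app P s e) := by
      rw [Finset.mul_sum, ← Finset.sum_add_distrib, ← Finset.sum_add_distrib]
      exact Finset.sum_congr rfl fun e _ => by ring
    have h5 : 0 ≤ ∑ e, a e * app P s e ^ 2 :=
      Finset.sum_nonneg fun e _ => mul_nonneg (ha e).le (sq_nonneg _)
    linarith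
  · choose u hu using fun f : X × X => h1 (Pi.single f 1)
    refine Loc.localize ha hd P u (fun e f => ?_) (fun f g => ?_)
    · rw [← hu f, app_single]
    · have h3 := h2 (Pi.single f 1) g
      rw [hu f] at h3
      have h4 : ∑ e, a e * (((Pi.single f (1 : ℝ) : X × X → ℝ) e - grad d (u f) e) * grad d g e) =
          a f * grad d g f - Loc.En a d (u f) g := by
        have h5 : ∀ e, a e * (((Pi.single f (1 : ℝ) : X × X → ℝ) e - grad d (u f) e) * grad d g e)
            = (if e = f then a f * grad d g f else 0) - a e * (grad d (u f) e * grad d g e) := by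
          intro e
          rw [Pi.single_apply]
          split_ifs with h
          · subst h
            ring
          · ring
        simp_rw [h5]
        rw [Finset.sum_sub_distrib, Finset.sum_ite_eq' Finset.univ f, if_pos (Finset.mem_univ f)]
        rfl
      linarith

/-- the convex constraints on a projection and an enlarged measure -/
structure Pre (d α : X × X → ℝ) (N : ℝ) (P : X × X → X × X → ℝ) (β : X × X → ℝ) : Prop where
  rng : ∀ s, ∃ u, app P s = grad d u
  fix : ∀ u, app P (grad d u) = grad d u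
  l2 : ∀ s, ∑ e, α e * (app P s e - s e) ^ 2 ≤ ∑ e, β e * s e ^ 2
  col : ∀ f, ∑ e, α e * |P e f| ≤ N * β f
  mass : ∑ e, β e ≤ 3
  le : ∀ e, α e ≤ β e

theorem pre_of_weights {d α : X × X → ℝ} (hd : ∀ e, 0 < d e) (hα : ∀ e, 0 < α e)
    (h1 : ∑ e, α e = 1) (hL : 0 < Real.log (2 * Fintype.card X)) (ζ : X × X → ℝ)
    (hζ : ∀ e, 0 ≤ ζ e) (hζ1 : ∑ e, ζ e ≤ 1) :
    ∃ P β, Pre d α (65 * Real.log (2 * Fintype.card X)) P β ∧
      ∑ e, ζ e * ∑ f, |P e f| ≤ 64 * Real.log (2 * Fintype.card X) := by
  set L := Real.log (2 * Fintype.card X) with hLdef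
  have ha : ∀ e, 0 < α e + ζ e := fun e => add_pos_of_pos_of_nonneg (hα e) (hζ e)
  obtain ⟨P, p1, p2, p3, p4⟩ := exists_elec (d := d) ha hd
  rw [Finset.sum_add_distrib, h1, ← hLdef] at p4
  have hrow : ∀ e, 0 ≤ ∑ f, |P e f| := fun e => Finset.sum_nonneg fun f _ => abs_nonneg _
  have q1 : ∑ e, (α e + ζ e) * ∑ f, |P e f| = ∑ e, α e * ∑ f, |P e f| + ∑ e, ζ e * ∑ f, |P e f| := by
    rw [← Finset.sum_add_distrib]
    exact Finset.sum_congr rfl fun e _ => by ring
  have q2 : 0 ≤ ∑ e, α e * ∑ f, |P e f| :=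
    Finset.sum_nonneg fun e _ => mul_nonneg (hα e).le (hrow e)
  have q3 : 0 ≤ ∑ e, ζ e * ∑ f, |P e f| :=
    Finset.sum_nonneg fun e _ => mul_nonneg (hζ e) (hrow e)
  have q4 : 32 * (1 + ∑ e, ζ e) * L ≤ 64 * L := by nlinarith
  have hcol : ∀ f, 0 ≤ ∑ e, α e * |P e f| := fun f =>
    Finset.sum_nonneg fun e _ => mul_nonneg (hα e).le (abs_nonneg _)
  refine ⟨P, fun f => α f + ζ f + (∑ e, α e * |P e f|) / (65 * L), ⟨p1, p2, fun s => ?_,
    fun f => ?_, ?_, fun e => ?_⟩, by linarith⟩
  · calc ∑ e, α e * (app P s e - s e) ^ 2 ≤ ∑ e, (α e + ζ e) * (app P s e - s e) ^ 2 :=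
          Finset.sum_le_sum fun e _ =>
            mul_le_mul_of_nonneg_right (le_add_of_nonneg_right (hζ e)) (sq_nonneg _)
      _ ≤ _ := p3 s
      _ ≤ _ := Finset.sum_le_sum fun e _ => mul_le_mul_of_nonneg_right
          (le_add_of_nonneg_right (div_nonneg (hcol e) (by positivity))) (sq_nonneg _)
  · rw [mul_add, mul_div_cancel₀ _ (by positivity)]
    have := mul_pos (show 0 < 65 * L by positivity) (ha f)
    linarith
  · rw [Finset.sum_add_distrib, Finset.sum_add_distrib, h1, ← Finset.sum_div, Finset.sum_comm]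
    simp_rw [← Finset.mul_sum]
    have : (∑ e, α e * ∑ f, |P e f|) / (65 * L) ≤ 1 := by
      rw [div_le_one (by positivity)]
      linarith
    linarith
  · have := div_nonneg (hcol e) (show 0 ≤ 65 * L by positivity)
    have := hζ e
    linarith

theorem Pre.combo {d α : X × X → ℝ} {N : ℝ} (hα : ∀ e, 0 < α e) {P P' : X × X → X × X → ℝ}
    {β β' : X × X → ℝ} (h : Pre d α N P β) (h' : Pre d α N P' β') {s t : ℝ} (hs : 0 ≤ s)
    (ht : 0 ≤ t) (hst : s + t = 1) :
    Pre d α N (fun e f => s * P e f + t * P' e f) (fun e => s * β e + t * β' e) := by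
  have happ : ∀ y e, app (fun e f => s * P e f + t * P' e f) y e =
      s * app P y e + t * app P' y e := by
    intro y e
    simp only [app, Finset.mul_sum]
    rw [← Finset.sum_add_distrib]
    exact Finset.sum_congr rfl fun f _ => by ring
  refine ⟨fun y => ?_, fun u => ?_, fun y => ?_, fun f => ?_, ?_, fun e => ?_⟩
  · obtain ⟨u, hu⟩ := h.rng y
    obtain ⟨v, hv⟩ := h'.rng y
    refine ⟨s • u + t • v, funext fun e => ?_⟩
    rw [happ, hu, hv, Loc.grad_add, Loc.grad_smul, Loc.grad_smul]
  · funext e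
    rw [happ, h.fix, h'.fix, ← add_mul, hst, one_mul]
  · have h1 := mul_le_mul_of_nonneg_left (h.l2 y) hs
    have h2 := mul_le_mul_of_nonneg_left (h'.l2 y) ht
    have h3 : ∑ e, (s * β e + t * β' e) * y e ^ 2 =
        s * ∑ e, β e * y e ^ 2 + t * ∑ e, β' e * y e ^ 2 := by
      rw [Finset.mul_sum, Finset.mul_sum, ← Finset.sum_add_distrib]
      exact Finset.sum_congr rfl fun e _ => by ring
    have h4 : ∑ e, α e * (app (fun e f => s * P e f + t * P' e f) y e - y e) ^ 2 ≤
        s * ∑ e, α e * (app P y e - y e) ^ 2 + t * ∑ e, α e * (app P' y e - y e) ^ 2 := by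
      rw [Finset.mul_sum, Finset.mul_sum, ← Finset.sum_add_distrib]
      refine Finset.sum_le_sum fun e _ => ?_
      rw [happ]
      have e1 : s * app P y e + t * app P' y e - y e =
          s * (app P y e - y e) + t * (app P' y e - y e) := by
        linear_combination (y e) * hst
      rw [e1]
      set p := app P y e - y e
      set q := app P' y e - y e
      have e2 : (s * p + t * q) ^ 2 ≤ s * p ^ 2 + t * q ^ 2 := by
        have e3 : s * p ^ 2 + t * q ^ 2 - (s * p + t * q) ^ 2 = s * t * (p - q) ^ 2 := by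
          have : t = 1 - s := by linarith
          subst this
          ring
        nlinarith [mul_nonneg (mul_nonneg hs ht) (sq_nonneg (p - q))]
      nlinarith [hα e]
    linarith
  · have h1 := mul_le_mul_of_nonneg_left (h.col f) hs
    have h2 := mul_le_mul_of_nonneg_left (h'.col f) ht
    have h4 : ∑ e, α e * |s * P e f + t * P' e f| ≤
        s * ∑ e, α e * |P e f| + t * ∑ e, α e * |P' e f| := by
      rw [Finset.mul_sum, Finset.mul_sum, ← Finset.sum_add_distrib]
      refine Finset.sum_le_sum fun e _ => ?_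
      have h5 := abs_add_le (s * P e f) (t * P' e f)
      rw [abs_mul, abs_mul, abs_of_nonneg hs, abs_of_nonneg ht] at h5
      nlinarith [hα e]
    linarith
  · rw [Finset.sum_add_distrib, ← Finset.mul_sum, ← Finset.mul_sum]
    nlinarith [h.mass, h'.mass]
  · have h1 := mul_le_mul_of_nonneg_left (h.le e) hs
    have h2 := mul_le_mul_of_nonneg_left (h'.le e) ht
    have : α e = s * α e + t * α e := by rw [← add_mul, hst, one_mul]
    linarith

theorem exists_proj {d α : X × X → ℝ} (hd : ∀ e, 0 < d e) (hα : ∀ e, 0 < α e)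
    (h1 : ∑ e, α e = 1) (hL : 0 < Real.log (2 * Fintype.card X)) :
    ∃ P β, Pre d α (65 * Real.log (2 * Fintype.card X)) P β ∧
      ∀ e, ∑ f, |P e f| ≤ 65 * Real.log (2 * Fintype.card X) := by
  set L := Real.log (2 * Fintype.card X) with hLdef
  by_contra hcon
  push Not at hcon
  let O : Set (X × X → ℝ) := {r | ∀ e, r e < 65 * L}
  let K : Set (X × X → ℝ) := {r | ∃ P β, Pre d α (65 * L) P β ∧ ∀ e, ∑ f, |P e f| ≤ r e}
  have hO : Convex ℝ O := by
    intro x hx y hy s t hs ht hst e
    have h2 := hx e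
    have h3 := hy e
    simp only [Pi.add_apply, Pi.smul_apply, smul_eq_mul]
    rcases hs.eq_or_lt with h | h
    · subst h
      have : t = 1 := by linarith
      subst this
      simpa using h3
    · nlinarith [mul_pos h (sub_pos.mpr h2), mul_nonneg ht (sub_pos.mpr h3).le]
  have hO' : IsOpen O := by
    have : O = ⋂ e, {r : X × X → ℝ | r e < 65 * L} := by
      ext r
      simp [O]
    rw [this]
    exact isOpen_iInter_of_finite fun e => isOpen_lt (continuous_apply e) continuous_const
  have hK : Convex ℝ K := by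
    rintro x ⟨P, β, hP, hx⟩ y ⟨P', β', hP', hy⟩ s t hs ht hst
    refine ⟨_, _, hP.combo hα hP' hs ht hst, fun e => ?_⟩
    simp only [Pi.add_apply, Pi.smul_apply, smul_eq_mul]
    have h4 : ∑ f, |s * P e f + t * P' e f| ≤ s * ∑ f, |P e f| + t * ∑ f, |P' e f| := by
      rw [Finset.mul_sum, Finset.mul_sum, ← Finset.sum_add_distrib]
      refine Finset.sum_le_sum fun f _ => ?_
      have h5 := abs_add_le (s * P e f) (t * P' e f)
      rwa [abs_mul, abs_mul, abs_of_nonneg hs, abs_of_nonneg ht] at h5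
    have h5 := mul_le_mul_of_nonneg_left (hx e) hs
    have h6 := mul_le_mul_of_nonneg_left (hy e) ht
    linarith
  have hdis : Disjoint O K := by
    rw [Set.disjoint_left]
    rintro r hr ⟨P, β, hP, hx⟩
    obtain ⟨e, he⟩ := hcon P β hP
    have := hr e
    have := hx e
    linarith
  obtain ⟨φ, u, hφ1, hφ2⟩ := geometric_hahn_banach_open hO hO' hK hdis
  let ζ : X × X → ℝ := fun e => φ (Pi.single e 1)
  have hφ : ∀ r : X × X → ℝ, φ r = ∑ e, ζ e * r e := by
    intro r
    have h2 : r = ∑ e, r e • (Pi.single e (1 : ℝ) : X × X → ℝ) := by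
      funext x
      simp [Finset.sum_apply, Pi.single_apply]
    conv_lhs => rw [h2]
    rw [map_sum]
    exact Finset.sum_congr rfl fun e _ => by rw [map_smul, smul_eq_mul, mul_comm]
  have hu0 : 0 < u := by
    have := hφ1 0 (fun e => by simp only [Pi.zero_apply]; positivity)
    simpa using this
  have hζ : ∀ e, 0 ≤ ζ e := by
    intro e
    by_contra hneg
    push Not at hneg
    have h2 := hφ1 ((u / ζ e) • (Pi.single e (1 : ℝ) : X × X → ℝ)) (fun e' => by
      have h3 : u / ζ e < 0 := div_neg_of_pos_of_neg hu0 hneg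
      simp only [Pi.smul_apply, Pi.single_apply, smul_eq_mul]
      split_ifs
      · linarith
      · simp only [mul_zero]
        positivity)
    rw [map_smul, smul_eq_mul] at h2
    change u / ζ e * ζ e < u at h2
    rw [div_mul_cancel₀ _ hneg.ne] at h2
    exact lt_irrefl _ h2
  set Z := ∑ e, ζ e with hZ
  have hZ0 : 0 ≤ Z := Finset.sum_nonneg fun e _ => hζ e
  have hZ1 : ∑ e, ζ e / Z ≤ 1 := by
    rw [← Finset.sum_div]
    exact div_self_le_one _
  obtain ⟨P, β, hP, hrow⟩ := pre_of_weights hd hα h1 hL (fun e => ζ e / Z)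
    (fun e => div_nonneg (hζ e) hZ0) hZ1
  have h3 := hφ2 (fun e => ∑ f, |P e f|) ⟨P, β, hP, fun e => le_rfl⟩
  have h4 := hφ1 (fun _ => 64 * L) (fun e => by linarith)
  rw [hφ] at h3 h4
  rw [← Finset.sum_mul, ← hZ] at h4
  rcases hZ0.eq_or_lt with h | h
  · have h5 : ∀ e, ζ e = 0 := fun e =>
      (Finset.sum_eq_zero_iff_of_nonneg (fun e _ => hζ e)).mp h.symm e (Finset.mem_univ e)
    simp [h5] at h3
    linarith
  · have h5 : ∑ e, ζ e * ∑ f, |P e f| = Z * ∑ e, ζ e / Z * ∑ f, |P e f| := by
      rw [Finset.mul_sum]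
      refine Finset.sum_congr rfl fun e _ => ?_
      field_simp
    have h6 := mul_le_mul_of_nonneg_left hrow h.le
    linarith

end Crest.Agent.R232
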