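import Crest.Agent.R232.Core
import Crest.Agent.R232.Proj

/-! Row 232: the oracle producing one Lipschitz coordinate for given weights. -/

open Finset

namespace Crest.Agent.R232

theorem exists_lev {s : ℝ} (hs : |s| ≤ 1) :
    ∃ l : ℕ, (s ≠ 0 → (1 / 2) ^ l ≤ |s|) ∧ |s| ≤ 2 * (1 / 2) ^ l := by
  rcases eq_or_ne s 0 with h | h
  · exact ⟨0, fun h' => absurd h h', by simp [h]⟩
  · have hex : ∃ k : ℕ, (1 / 2 : ℝ) ^ k ≤ |s| := by
      obtain ⟨k, hk⟩ := exists_pow_lt_of_lt_one (abs_pos.mpr h) (show (1 / 2 : ℝ) < 1 by norm_num)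
      exact ⟨k, hk.le⟩
    classical
    refine ⟨Nat.find hex, fun _ => Nat.find_spec hex, ?_⟩
    rcases Nat.eq_zero_or_pos (Nat.find hex) with h0 | h0
    · rw [h0]
      linarith [pow_zero (1 / 2 : ℝ)]
    · have h1 := not_le.mp (Nat.find_min hex (show Nat.find hex - 1 < Nat.find hex by omega))
      have h2 : (1 / 2 : ℝ) ^ Nat.find hex = (1 / 2) ^ (Nat.find hex - 1) * (1 / 2) := by
        rw [← pow_succ, Nat.sub_add_cancel h0]
      rw [h2]
      linarith

theorem exists_kappa {p : ℝ} (h1 : 1 < p) (h2 : p ≠ 2) {η : ℝ} (hη : 0 < η) :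
    ∃ κ0 θ : ℝ, 0 < κ0 ∧ κ0 ≤ 1 / 4 ∧ 0 ≤ θ ∧ ∀ Λ : ℝ, 1 ≤ Λ →
      Λ ^ p * (2 * (κ0 * Λ ^ (-θ))) ^ 2 ≤ η * (κ0 * Λ ^ (-θ)) ∧
      (if p < 2 then 0 else (Λ ^ 2 * (2 * (κ0 * Λ ^ (-θ)))) ^ (p / 2)) ≤ η * (κ0 * Λ ^ (-θ)) := by
  have first : ∀ κ0 θ Λ : ℝ, 0 < κ0 → κ0 ≤ η / 4 → p ≤ θ → 1 ≤ Λ →
      Λ ^ p * (2 * (κ0 * Λ ^ (-θ))) ^ 2 ≤ η * (κ0 * Λ ^ (-θ)) := by
    intro κ0 θ Λ k0 k1 k2 hΛ
    have a1 : Λ ^ p * Λ ^ (-θ) ≤ 1 := by
      rw [← Real.rpow_add (by linarith)]
      exact Real.rpow_le_one_of_one_le_of_nonpos hΛ (by linarith)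
    have a2 : 0 < κ0 * Λ ^ (-θ) := by positivity
    have e : Λ ^ p * (2 * (κ0 * Λ ^ (-θ))) ^ 2 =
        (4 * κ0 * (Λ ^ p * Λ ^ (-θ))) * (κ0 * Λ ^ (-θ)) := by ring
    rw [e]
    refine mul_le_mul_of_nonneg_right ?_ a2.le
    nlinarith
  rcases lt_or_gt_of_ne h2 with h3 | h3
  · refine ⟨min (1 / 4) (η / 4), p, by positivity, min_le_left _ _, by linarith, fun Λ hΛ =>
      ⟨first _ _ _ (by positivity) (min_le_right _ _) le_rfl hΛ, ?_⟩⟩
    rw [if_pos h3]
    positivity
  · set ν := p / 2 - 1 with hν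
    have hν0 : 0 < ν := by linarith
    set x : ℝ := (η / 2 ^ (p / 2)) ^ (1 / ν) with hx
    have hx0 : 0 < x := by positivity
    refine ⟨min (min (1 / 4) (η / 4)) x, p + p / ν, by positivity,
      (min_le_left _ _).trans (min_le_left _ _), by positivity, fun Λ hΛ =>
      ⟨first _ _ _ (by positivity) ((min_le_left _ _).trans (min_le_right _ _))
        (le_add_of_nonneg_right (by positivity)) hΛ, ?_⟩⟩
    rw [if_neg (by linarith)]
    set κ0 := min (min (1 / 4) (η / 4)) x with hκ0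
    have k0 : 0 < κ0 := by positivity
    have k1 : κ0 ^ ν ≤ η / 2 ^ (p / 2) := by
      have := Real.rpow_le_rpow k0.le (min_le_right _ x) hν0.le
      rwa [hx, ← Real.rpow_mul (by positivity), one_div, inv_mul_cancel₀ hν0.ne',
        Real.rpow_one] at this
    have hΛ0 : 0 < Λ := by linarith
    set κ := κ0 * Λ ^ (-(p + p / ν)) with hκ
    have κp : 0 < κ := by positivity
    have e1 : (Λ ^ 2 * (2 * κ)) ^ (p / 2) = Λ ^ p * 2 ^ (p / 2) * κ ^ ν * κ := by
      rw [Real.mul_rpow (by positivity) (by positivity), Real.mul_rpow (by norm_num) κp.le,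
        ← Real.rpow_natCast, ← Real.rpow_mul hΛ0.le, mul_assoc, mul_assoc,
        ← Real.rpow_add_one κp.ne']
      congr 2
      · push_cast
        ring
      · congr 1
        rw [hν]
        ring
    have e2 : κ ^ ν = κ0 ^ ν * Λ ^ (-(p * ν + p)) := by
      rw [hκ, Real.mul_rpow k0.le (by positivity), ← Real.rpow_mul hΛ0.le]
      congr 2
      field_simp
    have a1 : Λ ^ p * Λ ^ (-(p * ν + p)) ≤ 1 := by
      rw [← Real.rpow_add hΛ0]
      refine Real.rpow_le_one_of_one_le_of_nonpos hΛ ?_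
      nlinarith
    rw [e1, e2]
    refine mul_le_mul_of_nonneg_right ?_ κp.le
    rw [le_div_iff₀ (by positivity)] at k1
    have a2 : 0 ≤ κ0 ^ ν * 2 ^ (p / 2) := by positivity
    have := mul_le_mul a1 k1 a2 (by norm_num)
    nlinarith

variable {X : Type} [Fintype X] [DecidableEq X]

/-- the defect of a kernel -/
def dfc (P : X × X → X × X → ℝ) : (X × X → ℝ) →ₗ[ℝ] (X × X → ℝ) where
  toFun h := fun e => app P h e - h e
  map_add' g h := by
    funext e
    simp only [app, Pi.add_apply, mul_add, Finset.sum_add_distrib]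
    ring
  map_smul' c h := by
    funext e
    simp only [app, Pi.smul_apply, smul_eq_mul, RingHom.id_apply, mul_sub, Finset.mul_sum]
    congr 1
    exact Finset.sum_congr rfl fun f _ => by ring

theorem op_of_pre {d α : X × X → ℝ} {N : ℝ} {P : X × X → X × X → ℝ} {β : X × X → ℝ}
    (hα : ∀ e, 0 < α e) (hN : 0 ≤ N) (h : Pre d α N P β) (hrow : ∀ e, ∑ f, |P e f| ≤ N) :
    Op α β (N + 1) (dfc P) := by
  have habs : ∀ g e, |dfc P g e| ≤ ∑ f, |P e f| * |g f| + |g e| := by
    intro g e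
    refine (abs_sub _ _).trans (add_le_add ?_ le_rfl)
    refine (Finset.abs_sum_le_sum_abs _ _).trans (le_of_eq ?_)
    exact Finset.sum_congr rfl fun f _ => abs_mul _ _
  refine ⟨fun e => (hα e).le, fun e => (hα e).le.trans (h.le e), by linarith, h.l2, fun g => ?_,
    ⟨fun e f => |P e f| + if f = e then 1 else 0, fun e f => ?_, fun e => ?_, fun g e => ?_⟩⟩
  · have a1 : ∑ e, α e * |dfc P g e| ≤ ∑ e, α e * (∑ f, |P e f| * |g f| + |g e|) :=
      Finset.sum_le_sum fun e _ => mul_le_mul_of_nonneg_left (habs g e) (hα e).le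
    have a2 : ∑ e, α e * (∑ f, |P e f| * |g f| + |g e|) =
        ∑ f, ((∑ e, α e * |P e f|) + α f) * |g f| := by
      simp only [mul_add, add_mul, Finset.sum_add_distrib, Finset.mul_sum, Finset.sum_mul]
      rw [Finset.sum_comm]
      congr 1
      exact Finset.sum_congr rfl fun f _ => Finset.sum_congr rfl fun e _ => by ring
    rw [a2] at a1
    refine a1.trans ?_
    rw [Finset.mul_sum]
    refine Finset.sum_le_sum fun f _ => ?_
    rw [← mul_assoc]
    refine mul_le_mul_of_nonneg_right ?_ (abs_nonneg _)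
    linarith [h.col f, h.le f]
  · have := abs_nonneg (P e f)
    dsimp only
    split_ifs <;> linarith
  · rw [Finset.sum_add_distrib, Finset.sum_ite_eq' Finset.univ e, if_pos (Finset.mem_univ e)]
    linarith [hrow e]
  · refine (habs g e).trans (le_of_eq ?_)
    simp only [add_mul, Finset.sum_add_distrib, ite_mul, one_mul, zero_mul]
    rw [Finset.sum_ite_eq' Finset.univ e, if_pos (Finset.mem_univ e)]

theorem om_ne_zero {H : ℕ} {j l : ℕ} (h : om H ((j : ℤ) - l) ≠ 0) : l ≤ j ∧ j ≤ l + 4 * H := by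
  unfold om at h
  omega

open Classical in
theorem oracle {p : ℝ} (h1 : 1 < p) (h2 : p ≠ 2) {ε : ℝ} (hε : 0 < ε) :
    ∃ c0 κ0 θ : ℝ, 0 < c0 ∧ 0 < κ0 ∧ κ0 ≤ 1 ∧ 0 ≤ θ ∧
    ∀ {X T : Type} [Fintype X] [DecidableEq X] [Fintype T] [DecidableEq T]
      (d : X × X → ℝ) (f : T → X → ℝ), (∀ e, 0 < d e) →
      (∀ e, ∑ t, |grad d (f t) e| ^ p ≤ 1) → 0 < Real.log (2 * Fintype.card X) →
      ∀ (N Λ : ℝ) (H : ℕ), N = 65 * Real.log (2 * Fintype.card X) + 1 → 1 ≤ H →
      c0 * N ^ gam p ≤ H → Λ = N * (4 * H * 16 ^ H) →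
      ∃ c : ℝ, κ0 * Λ ^ (-θ) ≤ c ∧ ∀ α : X × X → ℝ, (∀ e, 0 < α e) → ∑ e, α e = 1 →
        ∀ b : X × X → ℝ, (∀ e, |b e| ≤ α e) → ∃ u : X → ℝ, (∀ e, |grad d u e| ≤ Λ) ∧
          ∑ e, b e * (|grad d u e| ^ p / c - ∑ t, |grad d (f t) e| ^ p) ≤ ε := by
  have hp0 : 0 < p := by linarith
  obtain ⟨C, hC, hcore⟩ := core h1.le
  set τ : ℝ := (1 + ε / 2) ^ (1 / p) - 1 with hτ
  have hτ0 : 0 < τ := by
    have := Real.one_lt_rpow (show 1 < 1 + ε / 2 by linarith) (show 0 < 1 / p by positivity)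
    linarith
  have hτ1 : (1 + τ) ^ p - 1 = ε / 2 := by
    have : 1 + τ = (1 + ε / 2) ^ (1 / p) := by rw [hτ]; ring
    rw [this, ← Real.rpow_mul (by positivity), one_div, inv_mul_cancel₀ hp0.ne', Real.rpow_one]
    ring
  set B : ℝ := (1 + 1 / τ) ^ p * C with hB
  have hB0 : 0 < B := by positivity
  obtain ⟨c0, hc0, hband⟩ := band h1 h2 (δ := ε / (18 * B)) (by positivity)
  obtain ⟨κ0, θ, k0, k1, k2, hkap⟩ := exists_kappa h1 h2 (η := ε / (6 * B)) (by positivity)
  refine ⟨c0, κ0, θ, hc0, k0, by linarith, k2,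
    fun {X T} _ _ _ _ d f hd hf hL N Λ H hN hH hH2 hΛ => ?_⟩
  have hN1 : 1 ≤ N := by linarith
  have hH1 : (1 : ℝ) ≤ H := by exact_mod_cast hH
  set a : ℝ := 4 * H * 16 ^ H with ha
  have ha1 : 1 ≤ a := by
    have : (1 : ℝ) ≤ 16 ^ H := one_le_pow₀ (by norm_num)
    rw [ha]
    nlinarith
  have hΛ1 : 1 ≤ Λ := by rw [hΛ]; nlinarith
  obtain ⟨q1, q2⟩ := hkap Λ hΛ1
  set κ := κ0 * Λ ^ (-θ) with hκ
  have hκ0 : 0 < κ := by positivity
  have hκ1 : κ ≤ 1 / 4 := by
    have := Real.rpow_le_one_of_one_le_of_nonpos hΛ1 (show -θ ≤ 0 by linarith)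
    rw [hκ]
    nlinarith
  have hOm : 1 ≤ Om H p := by
    have := Om_ge H hp0.le
    have h3 := Real.one_le_rpow hH1 hp0.le
    nlinarith
  refine ⟨κ * Om H p, le_mul_of_one_le_right hκ0.le hOm, fun α hα hα1 b hb => ?_⟩
  obtain ⟨P, β, hP, hrow⟩ := exists_proj hd hα hα1 hL
  have hK := op_of_pre hα (by positivity) hP hrow
  rw [← hN] at hK
  set s : T → X × X → ℝ := fun t => grad d (f t) with hs
  have hs1 : ∀ t e, |s t e| ≤ 1 := by
    intro t e
    have h3 : |s t e| ^ p ≤ 1 := le_trans (Finset.single_le_sum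
      (f := fun t => |grad d (f t) e| ^ p) (fun t _ => by positivity) (Finset.mem_univ t)) (hf e)
    by_contra h4
    push Not at h4
    have := Real.one_lt_rpow h4 hp0
    linarith
  choose l hl1 hl2 using fun t e => exists_lev (hs1 t e)
  set J : ℕ := Finset.univ.sup fun x : T × (X × X) => l x.1 x.2 with hJ
  have hlev : ∀ t, Lev (s t) J (l t) := fun t =>
    ⟨fun e => Finset.le_sup (f := fun x : T × (X × X) => l x.1 x.2) (Finset.mem_univ (t, e)),
      hl1 t, hl2 t⟩
  have hKs : ∀ t, dfc P (s t) = 0 := by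
    intro t
    funext e
    change app P (grad d (f t)) e - grad d (f t) e = 0
    rw [hP.fix, sub_self]
  set M : ℕ := J + 4 * H with hM
  set r : ℝ := (1 / 2) ^ p with hr
  have hr0 : 0 < r := by positivity
  have hr1 : r ≤ 1 / 2 := by
    have := Real.rpow_le_rpow_of_exponent_ge (show (0 : ℝ) < 1 / 2 by norm_num) (by norm_num) h1.le
    rwa [Real.rpow_one] at this
  let ρ : Option (Fin M) → ℝ := fun o => match o with
    | none => 1 - ∑ j : Fin M, κ * r ^ (j : ℕ)
    | some j => κ * r ^ (j : ℕ)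
  let y : T → Option (Fin M) → X × X → ℝ := fun t o => match o with
    | none => 0
    | some j => (2 : ℝ) ^ (j : ℕ) • piece (s t) (l t) H j
  have hgeo : ∀ k : ℕ, ∑ j ∈ range M, (if k ≤ j then r ^ j else 0) ≤ 2 * r ^ k := by
    intro k
    refine (geo_tail hr0.le (by linarith) M k).trans ?_
    rw [div_le_iff₀ (by linarith)]
    have : 0 < r ^ k := by positivity
    nlinarith
  have hρ0 : ∀ o, 0 ≤ ρ o := by
    rintro (_ | j)
    · change 0 ≤ 1 - ∑ j : Fin M, κ * r ^ (j : ℕ)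
      rw [← Finset.mul_sum, Fin.sum_univ_eq_sum_range (fun j => r ^ j) M]
      have := hgeo 0
      simp only [zero_le, if_true, pow_zero, mul_one] at this
      nlinarith
    · change 0 ≤ κ * r ^ (j : ℕ)
      positivity
  have hρ1 : ∑ o, ρ o = 1 := by
    rw [Fintype.sum_option]
    simp [ρ]
  have hsum : ∀ F : Option (Fin M) → ℝ, F none = 0 → ∀ G : ℕ → ℝ,
      (∀ j : Fin M, F (some j) = G j) → ∑ o, ρ o * F o = ∑ j ∈ range M, κ * r ^ j * G j := by
    intro F hF G hG
    rw [Fintype.sum_option, hF, mul_zero, zero_add,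
      ← Fin.sum_univ_eq_sum_range (fun j => κ * r ^ j * G j) M]
    exact Finset.sum_congr rfl fun j _ => by rw [hG]
  have hr2 : ∀ (j : ℕ) (x : ℝ), κ * r ^ j * |2 ^ j * x| ^ p = κ * |x| ^ p := by
    intro j x
    rw [abs_mul, Real.mul_rpow (abs_nonneg _) (abs_nonneg _), hr,
      Real.rpow_pow_comm (by norm_num), mul_assoc, ← mul_assoc (((1 / 2 : ℝ) ^ j) ^ p),
      ← Real.mul_rpow (by positivity) (abs_nonneg _), abs_of_pos (by positivity), ← mul_pow]
    norm_num
  have hy : ∀ t o e, |y t o e| ≤ a := by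
    rintro t (_ | j) e
    · change |(0 : ℝ)| ≤ a
      rw [abs_zero]
      linarith
    · change |(2 : ℝ) ^ (j : ℕ) * (s t e * ((om H (((j : ℕ) : ℤ) - l t e) : ℤ) : ℝ))| ≤ a
      by_cases h0 : om H (((j : ℕ) : ℤ) - l t e) = 0
      · rw [h0]
        simp only [Int.cast_zero, mul_zero, abs_zero]
        linarith
      · obtain ⟨-, h4⟩ := om_ne_zero h0
        rw [abs_mul, abs_mul, abs_of_pos (by positivity), abs_of_nonneg (om_nonneg _ _)]
        have h5 : (2 : ℝ) ^ (j : ℕ) ≤ 2 ^ l t e * 16 ^ H := by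
          have : (16 : ℝ) ^ H = 2 ^ (4 * H) := by rw [pow_mul]; norm_num
          rw [this, ← pow_add]
          exact pow_le_pow_right₀ (by norm_num) h4
        have h6 : (2 : ℝ) ^ l t e * (1 / 2) ^ l t e = 1 := by rw [← mul_pow]; norm_num
        calc (2 : ℝ) ^ (j : ℕ) * (|s t e| * ((om H (((j : ℕ) : ℤ) - l t e) : ℤ) : ℝ))
            ≤ (2 ^ l t e * 16 ^ H) * ((2 * (1 / 2) ^ l t e) * (2 * H)) :=
              mul_le_mul h5 (mul_le_mul (hl2 t e) (om_le _ _) (om_nonneg _ _) (by positivity))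
                (mul_nonneg (abs_nonneg _) (om_nonneg _ _)) (by positivity)
          _ = (2 ^ l t e * (1 / 2) ^ l t e) * a := by rw [ha]; ring
          _ = a := by rw [h6, one_mul]
  have hnz : ∀ e, ∑ t, ∑ o, ρ o * (if y t o e ≠ 0 then 1 else 0) ≤ 2 * κ := by
    intro e
    have b1 : ∀ t, ∑ o, ρ o * (if y t o e ≠ 0 then 1 else 0) ≤ 2 * κ * |s t e| ^ p := by
      intro t
      rw [hsum (fun o => if y t o e ≠ 0 then 1 else 0) (by simp [y])
        (fun j => if (2 : ℝ) ^ j * piece (s t) (l t) H j e ≠ 0 then 1 else 0) (fun j => rfl)]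
      rcases eq_or_ne (s t e) 0 with h | h
      · simp only [piece, h, zero_mul, mul_zero, ne_eq, not_true_eq_false, if_false,
          Finset.sum_const_zero]
        positivity
      · have b2 : ∑ j ∈ range M, κ * r ^ j *
            (if (2 : ℝ) ^ j * piece (s t) (l t) H j e ≠ 0 then 1 else 0) ≤
            κ * ∑ j ∈ range M, (if l t e ≤ j then r ^ j else 0) := by
          rw [Finset.mul_sum]
          refine Finset.sum_le_sum fun j _ => ?_
          by_cases h3 : l t e ≤ j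
          · rw [if_pos h3]
            refine mul_le_of_le_one_right (by positivity) ?_
            split_ifs <;> norm_num
          · rw [if_neg h3, if_neg, mul_zero, mul_zero]
            rw [not_not]
            have h4 : om H ((j : ℤ) - l t e) = 0 := by
              by_contra h5
              exact h3 (om_ne_zero h5).1
            simp [piece, h4]
        have b3 := mul_le_mul_of_nonneg_left (hgeo (l t e)) hκ0.le
        have b4 : r ^ l t e ≤ |s t e| ^ p := by
          rw [hr, Real.rpow_pow_comm (by norm_num)]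
          exact Real.rpow_le_rpow (by positivity) (hl1 t e h) hp0.le
        nlinarith
    refine (Finset.sum_le_sum fun t _ => b1 t).trans ?_
    rw [← Finset.mul_sum]
    exact mul_le_of_le_one_right (by positivity) (hf e)
  have hmom : ∀ e, ∑ t, ∑ o, ρ o * |y t o e| ^ p = κ * Om H p * ∑ t, |s t e| ^ p := by
    intro e
    rw [Finset.mul_sum]
    refine Finset.sum_congr rfl fun t _ => ?_
    rw [hsum (fun o => |y t o e| ^ p) (by simp [y, Real.zero_rpow hp0.ne'])
      (fun j => |(2 : ℝ) ^ j * piece (s t) (l t) H j e| ^ p) (fun j => rfl)]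
    simp only [hr2]
    rw [← sum_om H hp0 (l := l t e) (M := M) (by have := (hlev t).le e; omega), Finset.mul_sum,
      Finset.sum_mul]
    refine Finset.sum_congr rfl fun j _ => ?_
    rw [piece, abs_mul, Real.mul_rpow (abs_nonneg _) (abs_nonneg _), abs_of_nonneg (om_nonneg _ _)]
    ring
  have hD : ∑ t, ∑ o, ρ o * ∑ e, α e * |dfc P (y t o) e| ^ p ≤
      ε / (6 * B) * (κ * Om H p) := by
    have b1 : ∀ t, ∑ o, ρ o * ∑ e, α e * |dfc P (y t o) e| ^ p ≤
        κ * (ε / (18 * B) * Om H p * ∑ e, β e * |s t e| ^ p) := by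
      intro t
      rw [hsum (fun o => ∑ e, α e * |dfc P (y t o) e| ^ p) (by simp [y, Real.zero_rpow hp0.ne'])
        (fun j => ∑ e, α e * |(2 : ℝ) ^ j * dfc P (piece (s t) (l t) H j) e| ^ p)
        (fun j => by simp [y])]
      refine le_trans (le_of_eq ?_) (mul_le_mul_of_nonneg_left
        (hband hK (hlev t) (hKs t) H M hH2) hκ0.le)
      rw [Finset.mul_sum]
      refine Finset.sum_congr rfl fun j _ => ?_
      rw [Finset.mul_sum, Finset.mul_sum]
      refine Finset.sum_congr rfl fun e _ => ?_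
      rw [mul_left_comm, hr2]
      ring
    refine (Finset.sum_le_sum fun t _ => b1 t).trans ?_
    rw [← Finset.mul_sum, ← Finset.mul_sum, Finset.sum_comm]
    have b2 : ∑ e, ∑ t, β e * |s t e| ^ p ≤ 3 := by
      refine le_trans (Finset.sum_le_sum fun e _ => ?_) hP.mass
      rw [← Finset.mul_sum]
      exact mul_le_of_le_one_right (hK.β0 e) (hf e)
    have b3 := mul_le_mul_of_nonneg_left b2
      (show 0 ≤ κ * (ε / (18 * B) * Om H p) by positivity)
    refine le_trans (le_of_eq (by ring)) (b3.trans (le_of_eq ?_))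
    field_simp
    ring
  have hmain := hcore τ hτ0 hρ0 hρ1 hK hα1 y a (2 * κ) (κ * Om H p) _ (by linarith)
    (by positivity) (by linarith) hy hnz
    (fun e => by
      rw [hmom]
      exact mul_le_of_le_one_right (by positivity) (hf e)) hD
  have e1 : N ^ 2 * a ^ 2 = Λ ^ 2 := by rw [hΛ]; ring
  have e2 : N ^ p * a ^ p = Λ ^ p := by
    rw [hΛ, Real.mul_rpow (x := N) (y := a) (by linarith) (by linarith)]
  rw [hτ1, ← hB, e1, e2] at hmain
  set c := κ * Om H p with hc
  have hc0' : 0 < c := by positivity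
  have hκc : ε / (6 * B) * κ ≤ ε / (6 * B) * c :=
    mul_le_mul_of_nonneg_left (le_mul_of_one_le_right hκ0.le hOm) (by positivity)
  have hfin : ε / 2 * c + B * (ε / (6 * B) * c + (if p < 2 then 0 else (Λ ^ 2 * (2 * κ)) ^ (p / 2))
      + Λ ^ p * (2 * κ) ^ 2) ≤ ε * c := by
    have b1 : ε / (6 * B) * c + (if p < 2 then 0 else (Λ ^ 2 * (2 * κ)) ^ (p / 2))
        + Λ ^ p * (2 * κ) ^ 2 ≤ 3 * (ε / (6 * B) * c) := by linarith
    have b2 := mul_le_mul_of_nonneg_left b1 hB0.le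
    have b3 : B * (3 * (ε / (6 * B) * c)) = ε / 2 * c := by
      field_simp
      ring
    linarith
  let g : (T → Bool × Option (Fin M)) → X × X → ℝ := fun w e =>
    Rc (fun t o => y t o e) w + dfc P (fun f => Rc (fun t o => y t o f) w) e
  obtain ⟨w, hw⟩ := exists_le_Ex (sym_nonneg hρ0) (sym_sum_one hρ1)
    (fun w => ∑ e, b e * (|g w e| ^ p / c - ∑ t, |s t e| ^ p))
  obtain ⟨u, hu⟩ := hP.rng (fun f => Rc (fun t o => y t o f) w)
  have hgu : ∀ e, g w e = grad d u e := by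
    intro e
    rw [← hu]
    change _ + (app P _ e - _) = _
    ring
  refine ⟨u, fun e => ?_, ?_⟩
  · rw [← hu]
    refine (Finset.abs_sum_le_sum_abs _ _).trans ?_
    have b1 : ∑ f, |P e f * Rc (fun t o => y t o f) w| ≤ ∑ f, |P e f| * a := by
      refine Finset.sum_le_sum fun f _ => ?_
      rw [abs_mul]
      exact mul_le_mul_of_nonneg_left (abs_Rc_le (by linarith) (fun t o => hy t o f) w)
        (abs_nonneg _)
    rw [← Finset.sum_mul] at b1
    have b2 := mul_le_mul_of_nonneg_right (hrow e) (show 0 ≤ a by linarith)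
    rw [hΛ, hN]
    nlinarith
  · simp only [hgu] at hw
    refine hw.trans ?_
    rw [Ex_sum]
    have b1 : ∀ e, Ex (sym ρ) (fun w => b e * (|g w e| ^ p / c - ∑ t, |s t e| ^ p)) ≤
        1 / c * (α e * |Ex (sym ρ) (fun w => |g w e| ^ p) - ∑ t, ∑ o, ρ o * |y t o e| ^ p|) := by
      intro e
      have b2 : (fun w => b e * (|g w e| ^ p / c - ∑ t, |s t e| ^ p)) =
          fun w => b e / c * (|g w e| ^ p - c * ∑ t, |s t e| ^ p) := by
        funext w
        field_simp
      rw [b2, Ex_mul, Ex_sub, Ex_const (sym_sum_one hρ1), hmom]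
      refine (le_abs_self _).trans ?_
      rw [abs_mul, abs_div, abs_of_pos hc0', ← mul_assoc, one_div_mul_eq_div]
      exact mul_le_mul_of_nonneg_right (div_le_div_of_nonneg_right (hb e) hc0'.le) (abs_nonneg _)
    refine (Finset.sum_le_sum fun e _ => b1 e).trans ?_
    rw [← Finset.mul_sum, one_div_mul_eq_div, div_le_iff₀ hc0']
    exact hmain.trans hfin

end Crest.Agent.R232
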