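import Crest.Agent.R232.Ineq

/-! Row 232: finite product expectations and moment bounds for symmetric sums. -/

open Finset

namespace Crest.Agent.R232

set_option linter.unusedSectionVars false

section Ex
variable {T I : Type} [Fintype T] [DecidableEq T] [Fintype I]

/-- expectation over independent coordinates -/
def Ex (π : I → ℝ) (F : (T → I) → ℝ) : ℝ := ∑ w : T → I, (∏ t, π (w t)) * F w

variable {π : I → ℝ}

theorem Ex_prod (g : T → I → ℝ) : Ex π (fun w => ∏ t, g t (w t)) = ∏ t, ∑ i, π i * g t i := by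
  unfold Ex
  rw [Finset.prod_univ_sum, Fintype.piFinset_univ]
  exact Finset.sum_congr rfl fun w _ => Finset.prod_mul_distrib.symm

theorem Ex_mul (c : ℝ) (F : (T → I) → ℝ) : Ex π (fun w => c * F w) = c * Ex π F := by
  unfold Ex
  rw [Finset.mul_sum]
  exact Finset.sum_congr rfl fun w _ => by ring

theorem Ex_const (h1 : ∑ i, π i = 1) (c : ℝ) : Ex π (fun _ : T → I => c) = c := by
  have h := Ex_prod (π := π) (fun (_ : T) (_ : I) => (1 : ℝ))
  simp only [Finset.prod_const_one, mul_one, h1] at h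
  have h2 := Ex_mul (π := π) c (fun _ : T → I => (1 : ℝ))
  simp only [mul_one] at h2
  rw [h2, h, mul_one]

theorem Ex_add (F G : (T → I) → ℝ) : Ex π (fun w => F w + G w) = Ex π F + Ex π G := by
  unfold Ex
  rw [← Finset.sum_add_distrib]
  exact Finset.sum_congr rfl fun w _ => by ring

theorem Ex_sub (F G : (T → I) → ℝ) : Ex π (fun w => F w - G w) = Ex π F - Ex π G := by
  unfold Ex
  rw [← Finset.sum_sub_distrib]
  exact Finset.sum_congr rfl fun w _ => by ring

theorem Ex_sum {ι : Type} (s : Finset ι) (F : ι → (T → I) → ℝ) :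
    Ex π (fun w => ∑ i ∈ s, F i w) = ∑ i ∈ s, Ex π (F i) := by
  unfold Ex
  simp only [Finset.mul_sum]
  exact Finset.sum_comm

theorem Ex_mono (h0 : ∀ i, 0 ≤ π i) {F G : (T → I) → ℝ} (h : ∀ w, F w ≤ G w) :
    Ex π F ≤ Ex π G :=
  Finset.sum_le_sum fun w _ =>
    mul_le_mul_of_nonneg_left (h w) (Finset.prod_nonneg fun t _ => h0 (w t))

theorem Ex_single (h1 : ∑ i, π i = 1) (t : T) (g : I → ℝ) :
    Ex π (fun w : T → I => g (w t)) = ∑ i, π i * g i := by
  have h := Ex_prod (π := π) (fun (u : T) (i : I) => if u = t then g i else 1)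
  have e1 : ∀ w : T → I, ∏ u, (if u = t then g (w u) else 1) = g (w t) := by
    intro w
    rw [Finset.prod_ite_eq' Finset.univ t (fun u => g (w u)), if_pos (Finset.mem_univ t)]
  simp only [e1] at h
  rw [h]
  have e2 : ∀ u : T, ∑ i, π i * (if u = t then g i else 1) =
      if u = t then ∑ i, π i * g i else 1 := by
    intro u
    split_ifs <;> simp [h1]
  simp only [e2]
  rw [Finset.prod_ite_eq' Finset.univ t (fun _ => ∑ i, π i * g i), if_pos (Finset.mem_univ t)]

theorem Ex_update (h1 : ∑ i, π i = 1) (t : T) (F : (T → I) → ℝ) :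
    Ex π F = Ex π (fun w => ∑ i, π i * F (Function.update w t i)) := by
  let σ : (T → I) × I → (T → I) × I := fun x => (Function.update x.1 t x.2, x.1 t)
  have hσ : Function.Involutive σ := by
    rintro ⟨w, i⟩
    simp [σ]
  have e1 : Ex π F = ∑ x : (T → I) × I, (∏ u, π (x.1 u)) * π x.2 * F x.1 := by
    rw [Fintype.sum_prod_type]
    unfold Ex
    refine Finset.sum_congr rfl fun w _ => ?_
    have : ∑ i, (∏ u, π (w u)) * π i * F w = (∏ u, π (w u)) * F w * ∑ i, π i := by
      rw [Finset.mul_sum]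
      exact Finset.sum_congr rfl fun i _ => by ring
    rw [this, h1, mul_one]
  have e2 : Ex π (fun w => ∑ i, π i * F (Function.update w t i)) =
      ∑ x : (T → I) × I, (∏ u, π (x.1 u)) * π x.2 * F (Function.update x.1 t x.2) := by
    rw [Fintype.sum_prod_type]
    unfold Ex
    refine Finset.sum_congr rfl fun w _ => ?_
    rw [Finset.mul_sum]
    exact Finset.sum_congr rfl fun i _ => by ring
  rw [e1, e2, ← Equiv.sum_comp hσ.toPerm]
  refine Finset.sum_congr rfl fun x _ => ?_
  simp only [Function.Involutive.coe_toPerm, σ]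
  congr 1
  rw [← Finset.mul_prod_erase Finset.univ (fun u => π (x.1 u)) (Finset.mem_univ t),
    ← Finset.mul_prod_erase Finset.univ (fun u => π (Function.update x.1 t x.2 u))
      (Finset.mem_univ t), Function.update_self]
  have : ∏ u ∈ Finset.univ.erase t, π (Function.update x.1 t x.2 u) =
      ∏ u ∈ Finset.univ.erase t, π (x.1 u) :=
    Finset.prod_congr rfl fun u hu => by rw [Function.update_of_ne (Finset.ne_of_mem_erase hu)]
  rw [this]
  ring

theorem exists_le_Ex (h0 : ∀ i, 0 ≤ π i) (h1 : ∑ i, π i = 1) (F : (T → I) → ℝ) :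
    ∃ w, F w ≤ Ex π F := by
  have hI : Nonempty I := by
    by_contra h
    rw [not_nonempty_iff] at h
    simp at h1
  obtain ⟨w, -, hw⟩ := Finset.exists_min_image Finset.univ F
    ⟨fun _ => Classical.choice hI, Finset.mem_univ _⟩
  refine ⟨w, ?_⟩
  rw [← Ex_const (T := T) h1 (F w)]
  exact Ex_mono h0 fun w' => hw w' (Finset.mem_univ _)

end Ex

section Sym
variable {T O : Type} [Fintype T] [DecidableEq T] [Fintype O]

/-- sign of a bit -/
def sg (b : Bool) : ℝ := if b then -1 else 1

/-- symmetrised weights -/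
noncomputable def sym (ρ : O → ℝ) (i : Bool × O) : ℝ := ρ i.2 / 2

theorem abs_sg (b : Bool) : |sg b| = 1 := by
  cases b <;> simp [sg]

theorem sum_sym (ρ : O → ℝ) (g : Bool × O → ℝ) :
    ∑ i, sym ρ i * g i = ∑ o, ρ o * ((g (false, o) + g (true, o)) / 2) := by
  rw [Fintype.sum_prod_type, Fintype.sum_bool, ← Finset.sum_add_distrib]
  refine Finset.sum_congr rfl fun o _ => ?_
  simp only [sym]
  ring

theorem sym_sum_one {ρ : O → ℝ} (h1 : ∑ o, ρ o = 1) : ∑ i, sym ρ i = 1 := by
  have := sum_sym ρ (fun _ => 1)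
  simpa [h1] using this

theorem sym_nonneg {ρ : O → ℝ} (h0 : ∀ o, 0 ≤ ρ o) (i : Bool × O) : 0 ≤ sym ρ i :=
  div_nonneg (h0 _) (by norm_num)

/-- partial signed sums -/
def Rs (z : T → O → ℝ) (A : Finset T) (w : T → Bool × O) : ℝ :=
  ∑ t ∈ A, sg (w t).1 * z t (w t).2

theorem Ex_insert {ρ : O → ℝ} (h1 : ∑ o, ρ o = 1) (z : T → O → ℝ) {A : Finset T} {t : T}
    (ht : t ∉ A) (φ : ℝ → ℝ) :
    Ex (sym ρ) (fun w => φ (Rs z (insert t A) w)) =
      Ex (sym ρ) (fun w => ∑ o, ρ o * ((φ (Rs z A w + z t o) + φ (Rs z A w - z t o)) / 2)) := by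
  rw [Ex_update (sym_sum_one h1) t]
  congr 1
  funext w
  rw [sum_sym ρ (fun i => φ (Rs z (insert t A) (Function.update w t i)))]
  have e : ∀ i : Bool × O, Rs z (insert t A) (Function.update w t i) =
      Rs z A w + sg i.1 * z t i.2 := by
    intro i
    unfold Rs
    rw [Finset.sum_insert ht, Function.update_self, add_comm]
    congr 1
    refine Finset.sum_congr rfl fun u hu => ?_
    rw [Function.update_of_ne (show u ≠ t from fun h => ht (h ▸ hu))]
  simp only [e, sg]
  refine Finset.sum_congr rfl fun o _ => ?_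
  simp [sub_eq_add_neg]

theorem moment_le {ρ : O → ℝ} (h0 : ∀ o, 0 ≤ ρ o) (h1 : ∑ o, ρ o = 1) {p : ℝ} (hp0 : 0 < p)
    (hp : p ≤ 2) (z : T → O → ℝ) (A : Finset T) :
    Ex (sym ρ) (fun w => |Rs z A w| ^ p) ≤ ∑ t ∈ A, ∑ o, ρ o * |z t o| ^ p := by
  induction A using Finset.induction_on with
  | empty =>
    simp only [Rs, Finset.sum_empty, abs_zero, Real.zero_rpow hp0.ne']
    rw [Ex_const (sym_sum_one h1)]
  | insert t A ht ih =>
    rw [Ex_insert h1 z ht (fun x => |x| ^ p), Finset.sum_insert ht]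
    have h2 : Ex (sym ρ) (fun w => ∑ o, ρ o * ((|Rs z A w + z t o| ^ p +
        |Rs z A w - z t o| ^ p) / 2)) ≤
        Ex (sym ρ) (fun w => |Rs z A w| ^ p + ∑ o, ρ o * |z t o| ^ p) := by
      refine Ex_mono (sym_nonneg h0) fun w => ?_
      refine (Finset.sum_le_sum fun o _ => mul_le_mul_of_nonneg_left
        (two_point_le hp0.le hp _ _) (h0 o)).trans (le_of_eq ?_)
      simp only [mul_add]
      rw [Finset.sum_add_distrib, ← Finset.sum_mul, h1, one_mul]
    rw [Ex_add, Ex_const (sym_sum_one h1)] at h2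
    linarith

end Sym

theorem moment_ge {p : ℝ} (hp : 2 ≤ p) : ∃ C : ℝ, 1 ≤ C ∧
    ∀ {T O : Type} [Fintype T] [DecidableEq T] [Fintype O] {ρ : O → ℝ}, (∀ o, 0 ≤ ρ o) →
    ∑ o, ρ o = 1 → ∀ (z : T → O → ℝ) (V : ℝ), 0 < V → ∑ t, ∑ o, ρ o * z t o ^ 2 ≤ V →
    Ex (sym ρ) (fun w => |Rs z univ w| ^ p) ≤
      C * (∑ t, ∑ o, ρ o * |z t o| ^ p + V ^ (p / 2)) := by
  obtain ⟨C, hC, h2p⟩ := two_point_ge hp
  refine ⟨1 + Real.exp C * C, le_add_of_nonneg_right (by positivity),
    fun {T O} _ _ _ {ρ} h0 h1 z V hV hz => ?_⟩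
  have hp0 : 0 < p := by linarith
  set v : T → ℝ := fun t => ∑ o, ρ o * z t o ^ 2 with hv
  set a : T → ℝ := fun t => ∑ o, ρ o * |z t o| ^ p with ha
  have hv0 : ∀ t, 0 ≤ v t := fun t =>
    Finset.sum_nonneg fun o _ => mul_nonneg (h0 o) (sq_nonneg _)
  have ha0 : ∀ t, 0 ≤ a t := fun t =>
    Finset.sum_nonneg fun o _ => mul_nonneg (h0 o) (by positivity)
  set U := V ^ ((p - 2) / 2) with hU
  have hU0 : 0 < U := by positivity
  have hx : ∀ x : ℝ, |x| ^ (p - 2) ≤ |x| ^ p / V + U := by
    intro x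
    have b1 : 0 ≤ |x| ^ p / V := by positivity
    rcases le_total (x ^ 2) V with h | h
    · have : |x| ^ (p - 2) ≤ U := by
        rw [abs_rpow_eq]
        exact Real.rpow_le_rpow (sq_nonneg x) h (by linarith)
      linarith
    · have hx0 : 0 < |x| := by
        rw [abs_pos]
        rintro rfl
        norm_num at h
        linarith
      have e : |x| ^ p = |x| ^ (p - 2) * x ^ 2 := by
        rw [← sq_abs, ← Real.rpow_natCast, ← Real.rpow_add hx0]
        congr 1
        push_cast
        ring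
      have : |x| ^ (p - 2) ≤ |x| ^ p / V := by
        rw [le_div_iff₀ hV, e]
        exact mul_le_mul_of_nonneg_left h (by positivity)
      linarith
  have key : ∀ A : Finset T, Ex (sym ρ) (fun w => |Rs z A w| ^ p) ≤
      Real.exp (C * (∑ t ∈ A, v t) / V) * (C * (∑ t ∈ A, a t + (∑ t ∈ A, v t) * U)) := by
    intro A
    induction A using Finset.induction_on with
    | empty =>
      simp only [Rs, Finset.sum_empty, abs_zero, Real.zero_rpow hp0.ne']
      rw [Ex_const (sym_sum_one h1)]
      simp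
    | insert t A ht ih =>
      rw [Ex_insert h1 z ht (fun x => |x| ^ p), Finset.sum_insert ht, Finset.sum_insert ht]
      have h2 : Ex (sym ρ) (fun w => ∑ o, ρ o * ((|Rs z A w + z t o| ^ p +
          |Rs z A w - z t o| ^ p) / 2)) ≤
          Ex (sym ρ) (fun w => (1 + C * v t / V) * |Rs z A w| ^ p + C * (a t + v t * U)) := by
        refine Ex_mono (sym_nonneg h0) fun w => ?_
        refine (Finset.sum_le_sum fun o _ => mul_le_mul_of_nonneg_left
          (h2p _ _) (h0 o)).trans ?_
        have e : ∑ o, ρ o * (|Rs z A w| ^ p + C * (|Rs z A w| ^ (p - 2) * z t o ^ 2 +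
            |z t o| ^ p)) = (∑ o, ρ o) * |Rs z A w| ^ p +
              C * (|Rs z A w| ^ (p - 2) * v t + a t) := by
          simp only [hv, ha, Finset.mul_sum, Finset.sum_mul, ← Finset.sum_add_distrib]
          exact Finset.sum_congr rfl fun o _ => by ring
        rw [e, h1]
        have b1 := mul_le_mul_of_nonneg_left
          (mul_le_mul_of_nonneg_right (hx (Rs z A w)) (hv0 t)) hC.le
        have e2 : C * ((|Rs z A w| ^ p / V + U) * v t) =
            C * v t / V * |Rs z A w| ^ p + C * (v t * U) := by ring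
        rw [e2] at b1
        linarith
      rw [Ex_add, Ex_const (sym_sum_one h1), Ex_mul] at h2
      have sv : 0 ≤ ∑ t ∈ A, v t := Finset.sum_nonneg fun t _ => hv0 t
      have sa : 0 ≤ ∑ t ∈ A, a t := Finset.sum_nonneg fun t _ => ha0 t
      have b2 : 1 + C * v t / V ≤ Real.exp (C * v t / V) := by
        linarith [Real.add_one_le_exp (C * v t / V)]
      have b3 : 0 ≤ 1 + C * v t / V := by
        have := hv0 t
        positivity
      have e3 : Real.exp (C * (v t + ∑ t ∈ A, v t) / V) =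
          Real.exp (C * v t / V) * Real.exp (C * (∑ t ∈ A, v t) / V) := by
        rw [← Real.exp_add]
        congr 1
        ring
      have b4 : 1 ≤ Real.exp (C * (v t + ∑ t ∈ A, v t) / V) := by
        refine Real.one_le_exp ?_
        have := hv0 t
        positivity
      have b5 : 0 ≤ C * (a t + v t * U) := by
        have := hv0 t
        have := ha0 t
        positivity
      have b6 : (1 + C * v t / V) * Ex (sym ρ) (fun w => |Rs z A w| ^ p) ≤
          Real.exp (C * (v t + ∑ t ∈ A, v t) / V) *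
            (C * (∑ t ∈ A, a t + (∑ t ∈ A, v t) * U)) := by
        rw [e3, mul_assoc]
        exact (mul_le_mul_of_nonneg_left ih b3).trans
          (mul_le_mul_of_nonneg_right b2 (by positivity))
      have b7 := mul_le_mul_of_nonneg_right b4 b5
      nlinarith
  have k1 := key univ
  have sv : 0 ≤ ∑ t, v t := Finset.sum_nonneg fun t _ => hv0 t
  have sa : 0 ≤ ∑ t, a t := Finset.sum_nonneg fun t _ => ha0 t
  have k2 : Real.exp (C * (∑ t, v t) / V) ≤ Real.exp C := by
    refine Real.exp_le_exp.mpr ?_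
    rw [div_le_iff₀ hV]
    exact mul_le_mul_of_nonneg_left hz hC.le
  have k3 : (∑ t, v t) * U ≤ V ^ (p / 2) := by
    have e : V ^ (p / 2) = V * U := by
      rw [hU, mul_comm, ← Real.rpow_add_one hV.ne']
      congr 1
      ring
    rw [e]
    exact mul_le_mul_of_nonneg_right hz hU0.le
  have k4 : Real.exp (C * (∑ t, v t) / V) * (C * (∑ t, a t + (∑ t, v t) * U)) ≤
      Real.exp C * (C * (∑ t, a t + V ^ (p / 2))) :=
    mul_le_mul k2 (mul_le_mul_of_nonneg_left (by linarith) hC.le) (by positivity)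
      (Real.exp_pos _).le
  have k5 : 0 ≤ ∑ t, a t + V ^ (p / 2) := by positivity
  nlinarith

end Crest.Agent.R232
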