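import Crest.Agent.R232.Embed

set_option autoImplicit false
open MeasureTheory
open scoped ENNReal

namespace Crest.Agent.R232

universe u

/-- finite model of finitely many points of `L^p`. -/
theorem lp_reduce (p : ℝ≥0∞) [Fact (1 ≤ p)] (hptop : p ≠ ⊤) {n : ℕ}
    {α : Type u} [MeasurableSpace α] (μ : Measure α) (x : Fin n → Lp ℝ p μ) {δ : ℝ} (hδ : 0 < δ) :
    ∃ (T : Type) (_ : Fintype T) (f : T → Fin n → ℝ), ∀ i j,
      |(∑ t, |f t i - f t j| ^ p.toReal) ^ (1 / p.toReal) - ‖x i - x j‖| ≤ δ := by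
  classical
  have hp1 : 1 ≤ p := Fact.out
  have hp0 : p ≠ 0 := by
    intro h
    rw [h] at hp1
    simp at hp1
  have hq : 0 < p.toReal := ENNReal.toReal_pos hp0 hptop
  let F : α → Fin n → ℝ := fun a i => x i a
  have hF : MemLp F p μ := memLp_pi_iff.mpr fun i => Lp.memLp (x i)
  obtain ⟨g, hg, hgm⟩ := hF.exists_simpleFunc_eLpNorm_sub_lt hptop
    (ε := ENNReal.ofReal (δ / 2)) (by simp; linarith)
  have hgi : ∀ i, MemLp (fun a => g a i) p μ := memLp_pi_iff.mp hgm
  let z : Fin n → Lp ℝ p μ := fun i => (hgi i).toLp _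
  have hz : ∀ i, ‖x i - z i‖ ≤ δ / 2 := by
    intro i
    rw [Lp.norm_def]
    have e1 : eLpNorm (⇑(x i - z i)) p μ ≤ eLpNorm (F - ⇑g) p μ := by
      refine eLpNorm_mono_ae ?_
      filter_upwards [Lp.coeFn_sub (x i) (z i), (hgi i).coeFn_toLp] with a h1 h2
      rw [h1, Pi.sub_apply, h2]
      exact norm_le_pi_norm ((F - ⇑g) a) i
    have e2 := e1.trans hg.le
    exact ENNReal.toReal_le_of_le_ofReal (by linarith) e2
  refine ⟨{v // v ∈ g.range}, inferInstance,
    fun t i => (μ (g ⁻¹' {t.1})).toReal ^ (1 / p.toReal) * t.1 i, fun i j => ?_⟩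
  have key : (∑ t : {v // v ∈ g.range}, |(μ (g ⁻¹' {t.1})).toReal ^ (1 / p.toReal) * t.1 i -
      (μ (g ⁻¹' {t.1})).toReal ^ (1 / p.toReal) * t.1 j| ^ p.toReal) ^ (1 / p.toReal) =
      ‖z i - z j‖ := by
    rw [Lp.norm_def]
    have e1 : eLpNorm (⇑(z i - z j)) p μ = eLpNorm (fun a => g a i - g a j) p μ := by
      refine eLpNorm_congr_ae ?_
      filter_upwards [Lp.coeFn_sub (z i) (z j), (hgi i).coeFn_toLp, (hgi j).coeFn_toLp]
        with a h1 h2 h3
      rw [h1, Pi.sub_apply, h2, h3]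
    have h_map : (fun a => ‖g a i - g a j‖ₑ ^ p.toReal) =
        g.map (fun v => ‖v i - v j‖ₑ ^ p.toReal) := by
      ext a
      simp
    rw [e1, eLpNorm_eq_eLpNorm' hp0 hptop, eLpNorm'_eq_lintegral_enorm, h_map,
      SimpleFunc.lintegral_eq_lintegral, SimpleFunc.map_lintegral, ← ENNReal.toReal_rpow]
    congr 1
    rw [ENNReal.toReal_sum, ← Finset.sum_coe_sort g.range]
    · refine Finset.sum_congr rfl fun t _ => ?_
      rw [← mul_sub, abs_mul, Real.mul_rpow (abs_nonneg _) (abs_nonneg _),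
        abs_of_nonneg (by positivity), ← Real.rpow_mul ENNReal.toReal_nonneg, one_div,
        inv_mul_cancel₀ hq.ne', Real.rpow_one, ENNReal.toReal_mul, ← ENNReal.toReal_rpow,
        toReal_enorm, Real.norm_eq_abs, mul_comm]
    · intro v _
      by_cases hv : v = 0
      · simp [hv, hq]
      · exact ENNReal.mul_ne_top (ENNReal.rpow_ne_top_of_nonneg hq.le enorm_ne_top)
          (SimpleFunc.measure_preimage_lt_top_of_memLp hp0 hptop g hgm v hv).ne
  rw [key]
  have e3 : z i - z j - (x i - x j) = -(x i - z i) + (x j - z j) := by abel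
  calc |‖z i - z j‖ - ‖x i - x j‖| ≤ ‖z i - z j - (x i - x j)‖ := abs_norm_sub_norm_le _ _
    _ ≤ ‖-(x i - z i)‖ + ‖x j - z j‖ := by rw [e3]; exact norm_add_le _ _
    _ ≤ δ := by rw [norm_neg]; linarith [hz i, hz j]

end Crest.Agent.R232
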